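import Vale.Agent.P113.Mach

namespace Vale.Agent.P113

open Classical in
/-- `2^{-T}` if the machine halts on the input after exactly `T` steps, `0` if it does not halt. -/
noncomputable def amp (a : Machine × List ℕ) : ℝ :=
  if h : ∃ n, haltedBy (a, n) = true then (1 / 2 : ℝ) ^ (Nat.find h) else 0

theorem amp_of_halts {a : Machine × List ℕ} (h : HaltsOn a.1 a.2) : 0 < amp a ∧ amp a ≤ 1 := by
  have h' : ∃ n, haltedBy (a, n) = true := (haltsOn_iff a.1 a.2).1 h
  unfold amp
  rw [dif_pos h']
  exact ⟨by positivity, pow_le_one₀ (by norm_num) (by norm_num)⟩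

theorem amp_of_not_halts {a : Machine × List ℕ} (h : ¬ HaltsOn a.1 a.2) : amp a = 0 := by
  have h' : ¬ ∃ n, haltedBy (a, n) = true := fun h' => h ((haltsOn_iff a.1 a.2).2 h')
  unfold amp
  rw [dif_neg h']

/-- The first halting time up to `n`, or `n + 1`. -/
def firstHalt (p : (Machine × List ℕ) × ℕ) : ℕ :=
  (List.range (p.2 + 1)).findIdx (fun T => haltedBy (p.1, T))

/-- Rational approximations of `amp`. -/
def ampApprox (p : (Machine × List ℕ) × ℕ) : ℕ × ℕ × ℕ :=
  if firstHalt p < p.2 + 1 then (1, 0, 2 ^ firstHalt p - 1) else (0, 0, 0)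

theorem primrec_pow : Primrec₂ ((· ^ ·) : ℕ → ℕ → ℕ) := Primrec₂.unpaired'.1 Nat.Primrec.pow

theorem primrec_firstHalt : Primrec firstHalt := by
  have h1 : Primrec fun p : (Machine × List ℕ) × ℕ => List.range (p.2 + 1) :=
    Primrec.list_range.comp (Primrec.succ.comp Primrec.snd)
  have h2 : Primrec₂ fun (p : (Machine × List ℕ) × ℕ) (T : ℕ) => haltedBy (p.1, T) :=
    (primrec_haltedBy.comp ((Primrec.fst.comp Primrec.fst).pair Primrec.snd)).to₂
  exact Primrec.list_findIdx h1 h2

theorem primrec_ampApprox : Primrec ampApprox := by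
  refine Primrec.ite ?_ ?_ (Primrec.const _)
  · exact Primrec.nat_lt.comp primrec_firstHalt (Primrec.succ.comp Primrec.snd)
  · exact (Primrec.const 1).pair ((Primrec.const 0).pair
      (Primrec.nat_sub.comp (primrec_pow.comp (Primrec.const 2) primrec_firstHalt)
        (Primrec.const 1)))

theorem ampApprox_error (a : Machine × List ℕ) (n : ℕ) :
    |amp a - ratOf (ampApprox (a, n))| ≤ 1 / (n + 1) := by
  have hpos : (0 : ℝ) ≤ 1 / (n + 1) := by positivity
  by_cases hlt : firstHalt (a, n) < n + 1
  · have hw : haltedBy (a, firstHalt (a, n)) = true := by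
      have := List.findIdx_getElem (xs := List.range (n + 1))
        (p := fun T => haltedBy (a, T)) (w := by simpa [firstHalt] using hlt)
      simpa [firstHalt] using this
    have hmin : ∀ m < firstHalt (a, n), haltedBy (a, m) = false := by
      intro m hm
      have hm' : m < (List.range (n + 1)).findIdx (fun T => haltedBy (a, T)) := hm
      have := List.not_of_lt_findIdx hm'
      simpa using this
    have h' : ∃ n, haltedBy (a, n) = true := ⟨_, hw⟩
    have hf : Nat.find h' = firstHalt (a, n) := by
      rw [Nat.find_eq_iff]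
      refine ⟨hw, fun m hm => ?_⟩
      rw [hmin m hm]
      simp
    have e1 : amp a = (1 / 2 : ℝ) ^ firstHalt (a, n) := by
      unfold amp
      rw [dif_pos h', hf]
    have e2 : ((ratOf (ampApprox (a, n)) : ℚ) : ℝ) = (1 / 2 : ℝ) ^ firstHalt (a, n) := by
      unfold ampApprox
      rw [if_pos hlt]
      unfold ratOf
      have h2 : 1 ≤ 2 ^ firstHalt (a, n) := Nat.one_le_two_pow
      simp only
      push_cast [Nat.cast_sub h2]
      rw [sub_zero, sub_add_cancel, one_div, one_div, inv_pow]
    rw [e1, e2, sub_self, abs_zero]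
    exact hpos
  · have e2 : ((ratOf (ampApprox (a, n)) : ℚ) : ℝ) = 0 := by
      unfold ampApprox
      rw [if_neg hlt]
      simp [ratOf]
    rw [e2, sub_zero]
    by_cases h' : ∃ n, haltedBy (a, n) = true
    · have hall : ∀ m < n + 1, haltedBy (a, m) = false := by
        intro m hm
        by_contra hc
        have hc' : haltedBy (a, m) = true := by simpa using hc
        apply hlt
        have : (List.range (n + 1)).findIdx (fun T => haltedBy (a, T)) <
            (List.range (n + 1)).length :=
          List.findIdx_lt_length_of_exists ⟨m, by simpa using hm, hc'⟩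
        simpa [firstHalt] using this
      have hge : n + 1 ≤ Nat.find h' := by
        by_contra hc
        push Not at hc
        have h1 := Nat.find_spec h'
        rw [hall _ hc] at h1
        exact Bool.noConfusion h1
      unfold amp
      rw [dif_pos h', abs_of_nonneg (by positivity)]
      calc (1 / 2 : ℝ) ^ Nat.find h' ≤ (1 / 2 : ℝ) ^ (n + 1) :=
            pow_le_pow_of_le_one (by norm_num) (by norm_num) hge
        _ = 1 / 2 ^ (n + 1) := by rw [one_div, one_div, inv_pow]
        _ ≤ 1 / (n + 1) := by
            apply one_div_le_one_div_of_le (by positivity)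
            have : n + 1 < 2 ^ (n + 1) := Nat.lt_two_pow_self
            exact_mod_cast this.le
    · unfold amp
      rw [dif_neg h', abs_zero]
      exact hpos

end Vale.Agent.P113
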