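import Mathlib

open Set Filter Topology
open scoped ContDiff

namespace Vale.Agent.P113

/-- The bump `exp(-1/s - 1/(1-s))` on `(0,1)`, zero elsewhere. -/
noncomputable def lam (s : ℝ) : ℝ := expNegInvGlue s * expNegInvGlue (1 - s)

/-- Smooth functions vanishing outside `(0,1)`. -/
structure Flat (h : ℝ → ℝ) : Prop where
  smooth : ContDiff ℝ ∞ h
  zero : ∀ x, x ≤ 0 ∨ 1 ≤ x → h x = 0

theorem flat_lam : Flat lam where
  smooth := by
    unfold lam
    exact (expNegInvGlue.contDiff).mul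
      (expNegInvGlue.contDiff.comp (contDiff_const.sub contDiff_id))
  zero := by
    intro x hx
    unfold lam
    rcases hx with hx | hx
    · rw [expNegInvGlue.zero_of_nonpos hx, zero_mul]
    · rw [expNegInvGlue.zero_of_nonpos (show 1 - x ≤ 0 by linarith), mul_zero]

theorem lam_pos {x : ℝ} (h0 : 0 < x) (h1 : x < 1) : 0 < lam x :=
  mul_pos (expNegInvGlue.pos_of_pos h0) (expNegInvGlue.pos_of_pos (by linarith))

theorem lam_nonneg (x : ℝ) : 0 ≤ lam x :=
  mul_nonneg (expNegInvGlue.nonneg _) (expNegInvGlue.nonneg _)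

theorem Flat.deriv {h : ℝ → ℝ} (hh : Flat h) : Flat (deriv h) where
  smooth := (contDiff_infty_iff_deriv.1 hh.smooth).2
  zero := by
    intro x hx
    have hd : HasDerivAt h (_root_.deriv h x) x :=
      (hh.smooth.differentiable (by simp) x).hasDerivAt
    rcases hx with hx | hx
    · have h1 : HasDerivWithinAt h (_root_.deriv h x) (Iic x) x := hd.hasDerivWithinAt
      have h2 : HasDerivWithinAt h 0 (Iic x) x := by
        refine (hasDerivWithinAt_const x (Iic x) (0 : ℝ)).congr ?_ ?_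
        · intro y hy
          exact hh.zero y (Or.inl (le_trans hy hx))
        · exact hh.zero x (Or.inl hx)
      exact (uniqueDiffWithinAt_Iic x).eq_deriv _ h1 h2
    · have h1 : HasDerivWithinAt h (_root_.deriv h x) (Ici x) x := hd.hasDerivWithinAt
      have h2 : HasDerivWithinAt h 0 (Ici x) x := by
        refine (hasDerivWithinAt_const x (Ici x) (0 : ℝ)).congr ?_ ?_
        · intro y hy
          exact hh.zero y (Or.inr (le_trans hx hy))
        · exact hh.zero x (Or.inr hx)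
      exact (uniqueDiffWithinAt_Ici x).eq_deriv _ h1 h2

theorem Flat.iteratedDeriv {h : ℝ → ℝ} (hh : Flat h) (k : ℕ) : Flat (iteratedDeriv k h) := by
  induction k with
  | zero => simpa using hh
  | succ k ih => rw [iteratedDeriv_succ]; exact ih.deriv

/-- Periodic extension of the restriction of `h` to `[0,1)`. -/
noncomputable def per (h : ℝ → ℝ) (x : ℝ) : ℝ := h (Int.fract x)

theorem per_local {h : ℝ → ℝ} (hh : Flat h) (n : ℤ) {y : ℝ} (h1 : (n : ℝ) - 1 < y)
    (h2 : y < n + 1) : per h y = h (y - n) + h (y - n + 1) := by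
  unfold per
  by_cases hy : (n : ℝ) ≤ y
  · have : Int.fract y = y - n := by
      rw [Int.fract_eq_iff]
      exact ⟨by linarith, by linarith, n, by ring⟩
    rw [this, hh.zero (y - n + 1) (Or.inr (by linarith)), add_zero]
  · push Not at hy
    have : Int.fract y = y - n + 1 := by
      rw [Int.fract_eq_iff]
      exact ⟨by linarith, by linarith, n - 1, by push_cast; ring⟩
    rw [this, hh.zero (y - n) (Or.inl (by linarith)), zero_add]

theorem per_eventuallyEq {h : ℝ → ℝ} (hh : Flat h) (x : ℝ) :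
    per h =ᶠ[𝓝 x] fun y => h (y - (⌊x⌋ : ℤ)) + h (y - (⌊x⌋ : ℤ) + 1) := by
  have h1 : ((⌊x⌋ : ℤ) : ℝ) - 1 < x := by have := Int.floor_le x; linarith
  have h2 : x < (⌊x⌋ : ℤ) + 1 := Int.lt_floor_add_one x
  filter_upwards [Ioo_mem_nhds h1 h2] with y hy
  exact per_local hh _ hy.1 hy.2

theorem per_hasDerivAt {h : ℝ → ℝ} (hh : Flat h) (x : ℝ) :
    HasDerivAt (per h) (per (deriv h) x) x := by
  have h1 : ((⌊x⌋ : ℤ) : ℝ) - 1 < x := by have := Int.floor_le x; linarith
  have h2 : x < (⌊x⌋ : ℤ) + 1 := Int.lt_floor_add_one x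
  have hd : ∀ y, HasDerivAt h (deriv h y) y := fun y =>
    (hh.smooth.differentiable (by simp) y).hasDerivAt
  rw [per_local hh.deriv _ h1 h2]
  refine HasDerivAt.congr_of_eventuallyEq ?_ (per_eventuallyEq hh x)
  have e1 : HasDerivAt (fun y : ℝ => y - (⌊x⌋ : ℤ)) 1 x := (hasDerivAt_id x).sub_const _
  have e2 : HasDerivAt (fun y : ℝ => y - (⌊x⌋ : ℤ) + 1) 1 x := e1.add_const _
  have := ((hd (x - (⌊x⌋ : ℤ))).comp x e1).fun_add ((hd (x - (⌊x⌋ : ℤ) + 1)).comp x e2)
  simpa [Function.comp_def] using this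

theorem per_deriv {h : ℝ → ℝ} (hh : Flat h) : deriv (per h) = per (deriv h) :=
  funext fun x => (per_hasDerivAt hh x).deriv

theorem per_iteratedDeriv {h : ℝ → ℝ} (hh : Flat h) (k : ℕ) :
    iteratedDeriv k (per h) = per (iteratedDeriv k h) := by
  induction k with
  | zero => simp
  | succ k ih => rw [iteratedDeriv_succ, ih, per_deriv (hh.iteratedDeriv k), iteratedDeriv_succ]

theorem per_contDiff {h : ℝ → ℝ} (hh : Flat h) : ContDiff ℝ ∞ (per h) := by
  rw [contDiff_iff_contDiffAt]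
  intro x
  refine ContDiffAt.congr_of_eventuallyEq ?_ (per_eventuallyEq hh x)
  have h1 : ContDiff ℝ ∞ (fun y : ℝ => y - (⌊x⌋ : ℤ)) := contDiff_id.sub contDiff_const
  have h2 : ContDiff ℝ ∞ (fun y : ℝ => y - (⌊x⌋ : ℤ) + 1) := h1.add contDiff_const
  exact ((hh.smooth.comp h1).add (hh.smooth.comp h2)).contDiffAt

theorem per_periodic (h : ℝ → ℝ) (x : ℝ) (k : ℤ) : per h (x + k) = per h x := by
  unfold per
  rw [Int.fract_add_intCast]

/-- The periodic bump train. -/
noncomputable def bb : ℝ → ℝ := per lam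

/-- The bump train without the bump on `[0,1]`. -/
noncomputable def b2 (t : ℝ) : ℝ := bb t - lam t

theorem bb_contDiff : ContDiff ℝ ∞ bb := per_contDiff flat_lam

theorem b2_contDiff : ContDiff ℝ ∞ b2 := bb_contDiff.sub flat_lam.smooth

theorem b2_of_le_one {t : ℝ} (h0 : 0 ≤ t) (h1 : t ≤ 1) : b2 t = 0 := by
  unfold b2 bb per
  rcases h1.lt_or_eq with h | h
  · rw [Int.fract_eq_self.2 ⟨h0, h⟩, sub_self]
  · subst h
    rw [flat_lam.zero 1 (Or.inr le_rfl), Int.fract_one, flat_lam.zero 0 (Or.inl le_rfl), sub_zero]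

theorem b2_of_one_le {t : ℝ} (h1 : 1 ≤ t) : b2 t = bb t := by
  unfold b2
  rw [flat_lam.zero t (Or.inr h1), sub_zero]

theorem lam_mul_b2 {t : ℝ} (h0 : 0 ≤ t) : lam t * b2 t = 0 := by
  rcases le_total t 1 with h | h
  · rw [b2_of_le_one h0 h, mul_zero]
  · rw [flat_lam.zero t (Or.inr h), zero_mul]

theorem bb_nonneg (t : ℝ) : 0 ≤ bb t := lam_nonneg _

end Vale.Agent.P113
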