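import Vale.Agent.P113.Defs
import Vale.Agent.P113.Bump

open Set Filter Topology
open scoped ContDiff

namespace Vale.Agent.P113

/-- A family of reals that is uniformly computable from the index. -/
def CompReal {α : Type} [Primcodable α] (F : α → ℝ) : Prop :=
  ∃ g : α × ℕ → ℕ × ℕ × ℕ, Computable g ∧ ∀ a n, |F a - ratOf (g (a, n))| ≤ 1 / (n + 1)

/-! ### Arithmetic of codes of rational numbers -/

/-- Sum of codes. -/
def qadd (p q : ℕ × ℕ × ℕ) : ℕ × ℕ × ℕ :=
  (p.1 * (q.2.2 + 1) + q.1 * (p.2.2 + 1), p.2.1 * (q.2.2 + 1) + q.2.1 * (p.2.2 + 1),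
    p.2.2 * q.2.2 + p.2.2 + q.2.2)

/-- Opposite of a code. -/
def qneg (p : ℕ × ℕ × ℕ) : ℕ × ℕ × ℕ := (p.2.1, p.1, p.2.2)

/-- Product of codes. -/
def qmul (p q : ℕ × ℕ × ℕ) : ℕ × ℕ × ℕ :=
  (p.1 * q.1 + p.2.1 * q.2.1, p.1 * q.2.1 + p.2.1 * q.1, p.2.2 * q.2.2 + p.2.2 + q.2.2)

/-- Inverse of a code. -/
def qinv (p : ℕ × ℕ × ℕ) : ℕ × ℕ × ℕ :=
  if p.2.1 < p.1 then (p.2.2 + 1, 0, p.1 - p.2.1 - 1)
  else if p.1 < p.2.1 then (0, p.2.2 + 1, p.2.1 - p.1 - 1) else (0, 0, 0)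

/-- Positive part of a code. -/
def qpos (p : ℕ × ℕ × ℕ) : ℕ × ℕ × ℕ := if p.2.1 < p.1 then p else (0, 0, 0)

/-- Fractional part of a code. -/
def qfract (p : ℕ × ℕ × ℕ) : ℕ × ℕ × ℕ := ((p.1 + p.2.1 * p.2.2) % (p.2.2 + 1), 0, p.2.2)

theorem ratOf_qadd (p q : ℕ × ℕ × ℕ) : ratOf (qadd p q) = ratOf p + ratOf q := by
  unfold ratOf qadd
  have h1 : ((p.2.2 : ℚ) + 1) ≠ 0 := by positivity
  have h2 : ((q.2.2 : ℚ) + 1) ≠ 0 := by positivity
  have h3 : (((p.2.2 * q.2.2 + p.2.2 + q.2.2 : ℕ) : ℚ) + 1) = (p.2.2 + 1) * (q.2.2 + 1) := by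
    push_cast; ring
  simp only []
  rw [h3]
  push_cast
  field_simp
  ring

theorem ratOf_qneg (p : ℕ × ℕ × ℕ) : ratOf (qneg p) = - ratOf p := by
  unfold ratOf qneg
  simp only []
  rw [← neg_div, neg_sub]

theorem ratOf_qmul (p q : ℕ × ℕ × ℕ) : ratOf (qmul p q) = ratOf p * ratOf q := by
  unfold ratOf qmul
  have h1 : ((p.2.2 : ℚ) + 1) ≠ 0 := by positivity
  have h2 : ((q.2.2 : ℚ) + 1) ≠ 0 := by positivity
  have h3 : (((p.2.2 * q.2.2 + p.2.2 + q.2.2 : ℕ) : ℚ) + 1) = (p.2.2 + 1) * (q.2.2 + 1) := by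
    push_cast; ring
  simp only []
  rw [h3]
  push_cast
  field_simp
  ring

theorem ratOf_qinv (p : ℕ × ℕ × ℕ) : ratOf (qinv p) = (ratOf p)⁻¹ := by
  unfold ratOf qinv
  have h1 : ((p.2.2 : ℚ) + 1) ≠ 0 := by positivity
  by_cases h : p.2.1 < p.1
  · rw [if_pos h]
    have h4 : 1 ≤ p.1 - p.2.1 := by omega
    simp only []
    rw [inv_div, Nat.cast_sub h4, Nat.cast_sub h.le]
    simp
  · rw [if_neg h]
    by_cases h' : p.1 < p.2.1
    · rw [if_pos h']
      have h4 : 1 ≤ p.2.1 - p.1 := by omega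
      simp only []
      rw [inv_div, Nat.cast_sub h4, Nat.cast_sub h'.le]
      push_cast
      rw [show ((p.2.1 : ℚ) - p.1 - 1 + 1) = -(p.1 - p.2.1) by ring, div_neg, ← neg_div]
      ring
    · rw [if_neg h']
      have : p.1 = p.2.1 := by omega
      simp [this]

theorem ratOf_qpos (p : ℕ × ℕ × ℕ) : ratOf (qpos p) = max (ratOf p) 0 := by
  unfold ratOf qpos
  have h1 : (0 : ℚ) < (p.2.2 : ℚ) + 1 := by positivity
  by_cases h : p.2.1 < p.1
  · rw [if_pos h, max_eq_left]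
    apply div_nonneg _ h1.le
    have : (p.2.1 : ℚ) < p.1 := by exact_mod_cast h
    linarith
  · rw [if_neg h, max_eq_right]
    · simp
    · apply div_nonpos_of_nonpos_of_nonneg _ h1.le
      have : (p.1 : ℚ) ≤ p.2.1 := by exact_mod_cast (not_lt.1 h)
      linarith

theorem ratOf_qfract (p : ℕ × ℕ × ℕ) : ratOf (qfract p) = Int.fract (ratOf p) := by
  symm
  rw [Int.fract_eq_iff]
  unfold ratOf qfract
  have h1 : (0 : ℚ) < (p.2.2 : ℚ) + 1 := by positivity
  simp only [Nat.cast_zero, sub_zero]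
  refine ⟨by positivity, ?_, ?_⟩
  · rw [div_lt_one h1]
    exact_mod_cast Nat.mod_lt _ (Nat.succ_pos _)
  · have h2 := Nat.div_add_mod (p.1 + p.2.1 * p.2.2) (p.2.2 + 1)
    generalize (p.1 + p.2.1 * p.2.2) / (p.2.2 + 1) = d at h2
    generalize (p.1 + p.2.1 * p.2.2) % (p.2.2 + 1) = r at h2 ⊢
    refine ⟨(d : ℤ) - (p.2.1 : ℤ), ?_⟩
    have h3 : ((p.2.2 : ℚ) + 1) * (d : ℚ) + (r : ℚ) = p.1 + p.2.1 * p.2.2 := by
      exact_mod_cast h2
    rw [← sub_div, div_eq_iff h1.ne']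
    push_cast
    linarith

theorem primrec_qadd : Primrec₂ qadd := by
  unfold qadd
  have f1 : Primrec (fun x : (ℕ × ℕ × ℕ) × (ℕ × ℕ × ℕ) => x.1.1) :=
    Primrec.fst.comp Primrec.fst
  have f2 : Primrec (fun x : (ℕ × ℕ × ℕ) × (ℕ × ℕ × ℕ) => x.1.2.1) :=
    Primrec.fst.comp (Primrec.snd.comp Primrec.fst)
  have f3 : Primrec (fun x : (ℕ × ℕ × ℕ) × (ℕ × ℕ × ℕ) => x.1.2.2) :=
    Primrec.snd.comp (Primrec.snd.comp Primrec.fst)
  have g1 : Primrec (fun x : (ℕ × ℕ × ℕ) × (ℕ × ℕ × ℕ) => x.2.1) :=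
    Primrec.fst.comp Primrec.snd
  have g2 : Primrec (fun x : (ℕ × ℕ × ℕ) × (ℕ × ℕ × ℕ) => x.2.2.1) :=
    Primrec.fst.comp (Primrec.snd.comp Primrec.snd)
  have g3 : Primrec (fun x : (ℕ × ℕ × ℕ) × (ℕ × ℕ × ℕ) => x.2.2.2) :=
    Primrec.snd.comp (Primrec.snd.comp Primrec.snd)
  exact (Primrec.nat_add.comp (Primrec.nat_mul.comp f1 (Primrec.succ.comp g3))
      (Primrec.nat_mul.comp g1 (Primrec.succ.comp f3))).pair
    ((Primrec.nat_add.comp (Primrec.nat_mul.comp f2 (Primrec.succ.comp g3))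
      (Primrec.nat_mul.comp g2 (Primrec.succ.comp f3))).pair
    (Primrec.nat_add.comp (Primrec.nat_add.comp (Primrec.nat_mul.comp f3 g3) f3) g3))

theorem primrec_qneg : Primrec qneg := by
  unfold qneg
  exact (Primrec.fst.comp Primrec.snd).pair (Primrec.fst.pair (Primrec.snd.comp Primrec.snd))

theorem primrec_qmul : Primrec₂ qmul := by
  unfold qmul
  have f1 : Primrec (fun x : (ℕ × ℕ × ℕ) × (ℕ × ℕ × ℕ) => x.1.1) :=
    Primrec.fst.comp Primrec.fst
  have f2 : Primrec (fun x : (ℕ × ℕ × ℕ) × (ℕ × ℕ × ℕ) => x.1.2.1) :=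
    Primrec.fst.comp (Primrec.snd.comp Primrec.fst)
  have f3 : Primrec (fun x : (ℕ × ℕ × ℕ) × (ℕ × ℕ × ℕ) => x.1.2.2) :=
    Primrec.snd.comp (Primrec.snd.comp Primrec.fst)
  have g1 : Primrec (fun x : (ℕ × ℕ × ℕ) × (ℕ × ℕ × ℕ) => x.2.1) :=
    Primrec.fst.comp Primrec.snd
  have g2 : Primrec (fun x : (ℕ × ℕ × ℕ) × (ℕ × ℕ × ℕ) => x.2.2.1) :=
    Primrec.fst.comp (Primrec.snd.comp Primrec.snd)
  have g3 : Primrec (fun x : (ℕ × ℕ × ℕ) × (ℕ × ℕ × ℕ) => x.2.2.2) :=
    Primrec.snd.comp (Primrec.snd.comp Primrec.snd)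
  exact (Primrec.nat_add.comp (Primrec.nat_mul.comp f1 g1) (Primrec.nat_mul.comp f2 g2)).pair
    ((Primrec.nat_add.comp (Primrec.nat_mul.comp f1 g2) (Primrec.nat_mul.comp f2 g1)).pair
    (Primrec.nat_add.comp (Primrec.nat_add.comp (Primrec.nat_mul.comp f3 g3) f3) g3))

theorem primrec_qinv : Primrec qinv := by
  unfold qinv
  have f1 : Primrec (fun x : ℕ × ℕ × ℕ => x.1) := Primrec.fst
  have f2 : Primrec (fun x : ℕ × ℕ × ℕ => x.2.1) := Primrec.fst.comp Primrec.snd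
  have f3 : Primrec (fun x : ℕ × ℕ × ℕ => x.2.2) := Primrec.snd.comp Primrec.snd
  exact Primrec.ite (Primrec.nat_lt.comp f2 f1)
    ((Primrec.succ.comp f3).pair ((Primrec.const 0).pair
      (Primrec.nat_sub.comp (Primrec.nat_sub.comp f1 f2) (Primrec.const 1))))
    (Primrec.ite (Primrec.nat_lt.comp f1 f2)
      ((Primrec.const 0).pair ((Primrec.succ.comp f3).pair
        (Primrec.nat_sub.comp (Primrec.nat_sub.comp f2 f1) (Primrec.const 1))))
      (Primrec.const _))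

theorem primrec_qpos : Primrec qpos := by
  unfold qpos
  have f1 : Primrec (fun x : ℕ × ℕ × ℕ => x.1) := Primrec.fst
  have f2 : Primrec (fun x : ℕ × ℕ × ℕ => x.2.1) := Primrec.fst.comp Primrec.snd
  exact Primrec.ite (Primrec.nat_lt.comp f2 f1) Primrec.id (Primrec.const _)

theorem primrec_qfract : Primrec qfract := by
  unfold qfract
  have f1 : Primrec (fun x : ℕ × ℕ × ℕ => x.1) := Primrec.fst
  have f2 : Primrec (fun x : ℕ × ℕ × ℕ => x.2.1) := Primrec.fst.comp Primrec.snd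
  have f3 : Primrec (fun x : ℕ × ℕ × ℕ => x.2.2) := Primrec.snd.comp Primrec.snd
  exact (Primrec.nat_mod.comp (Primrec.nat_add.comp f1 (Primrec.nat_mul.comp f2 f3))
    (Primrec.succ.comp f3)).pair ((Primrec.const 0).pair f3)

/-! ### Rational-valued primitive recursive families -/

/-- A family of rationals with primitive recursive codes. -/
def RatComp {α : Type} [Primcodable α] (f : α → ℚ) : Prop :=
  ∃ g : α → ℕ × ℕ × ℕ, Primrec g ∧ ∀ a, ratOf (g a) = f a

variable {α β : Type} [Primcodable α] [Primcodable β]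

theorem RatComp.comp {f : β → ℚ} (hf : RatComp f) {h : α → β} (hh : Primrec h) :
    RatComp (fun a => f (h a)) := by
  obtain ⟨g, hg, e⟩ := hf
  exact ⟨fun a => g (h a), hg.comp hh, fun a => e _⟩

theorem RatComp.code {f : α → ℕ × ℕ × ℕ} (hf : Primrec f) : RatComp (fun a => ratOf (f a)) :=
  ⟨f, hf, fun _ => rfl⟩

theorem RatComp.natCast {f : α → ℕ} (hf : Primrec f) : RatComp (fun a => (f a : ℚ)) :=
  ⟨fun a => (f a, 0, 0), hf.pair ((Primrec.const 0).pair (Primrec.const 0)), fun a => by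
    simp [ratOf]⟩

theorem RatComp.const (n : ℕ) : RatComp (fun _ : α => (n : ℚ)) :=
  RatComp.natCast (Primrec.const n)

theorem RatComp.add {f g : α → ℚ} (hf : RatComp f) (hg : RatComp g) :
    RatComp (fun a => f a + g a) := by
  obtain ⟨f', hf', e⟩ := hf
  obtain ⟨g', hg', e'⟩ := hg
  exact ⟨fun a => qadd (f' a) (g' a), primrec_qadd.comp hf' hg', fun a => by
    rw [ratOf_qadd, e, e']⟩

theorem RatComp.mul {f g : α → ℚ} (hf : RatComp f) (hg : RatComp g) :
    RatComp (fun a => f a * g a) := by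
  obtain ⟨f', hf', e⟩ := hf
  obtain ⟨g', hg', e'⟩ := hg
  exact ⟨fun a => qmul (f' a) (g' a), primrec_qmul.comp hf' hg', fun a => by
    rw [ratOf_qmul, e, e']⟩

theorem RatComp.neg {f : α → ℚ} (hf : RatComp f) : RatComp (fun a => - f a) := by
  obtain ⟨f', hf', e⟩ := hf
  exact ⟨fun a => qneg (f' a), primrec_qneg.comp hf', fun a => by rw [ratOf_qneg, e]⟩

theorem RatComp.sub {f g : α → ℚ} (hf : RatComp f) (hg : RatComp g) :
    RatComp (fun a => f a - g a) := by
  simpa only [sub_eq_add_neg] using hf.add hg.neg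

theorem RatComp.inv {f : α → ℚ} (hf : RatComp f) : RatComp (fun a => (f a)⁻¹) := by
  obtain ⟨f', hf', e⟩ := hf
  exact ⟨fun a => qinv (f' a), primrec_qinv.comp hf', fun a => by rw [ratOf_qinv, e]⟩

theorem RatComp.pos {f : α → ℚ} (hf : RatComp f) : RatComp (fun a => max (f a) 0) := by
  obtain ⟨f', hf', e⟩ := hf
  exact ⟨fun a => qpos (f' a), primrec_qpos.comp hf', fun a => by rw [ratOf_qpos, e]⟩

/-- Powers of a code. -/
def qpow (p : ℕ × ℕ × ℕ) (n : ℕ) : ℕ × ℕ × ℕ := Nat.rec (1, 0, 0) (fun _ y => qmul y p) n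

theorem ratOf_qpow (p : ℕ × ℕ × ℕ) (n : ℕ) : ratOf (qpow p n) = ratOf p ^ n := by
  induction n with
  | zero => simp [qpow, ratOf]
  | succ n ih =>
    have : qpow p (n + 1) = qmul (qpow p n) p := rfl
    rw [this, ratOf_qmul, ih, pow_succ]

theorem primrec_qpow : Primrec₂ qpow := by
  unfold qpow
  exact Primrec.nat_rec (Primrec.const _)
    (primrec_qmul.comp (Primrec.snd.comp Primrec.snd) Primrec.fst).to₂

theorem RatComp.pow {f : α → ℚ} (hf : RatComp f) {n : α → ℕ} (hn : Primrec n) :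
    RatComp (fun a => f a ^ n a) := by
  obtain ⟨f', hf', e⟩ := hf
  exact ⟨fun a => qpow (f' a) (n a), primrec_qpow.comp hf' hn, fun a => by
    rw [ratOf_qpow, e]⟩

/-! ### Closure properties of computable families of reals -/

theorem CompReal.comp {F : β → ℝ}
    (hF : CompReal F) {f : α → β} (hf : Computable f) : CompReal (fun a => F (f a)) := by
  obtain ⟨g, hg, h⟩ := hF
  exact ⟨fun p => g (f p.1, p.2), hg.comp ((hf.comp Computable.fst).pair Computable.snd),
    fun a n => h _ _⟩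

theorem CompReal.ofRat {f : α → ℕ × ℕ × ℕ} (hf : Computable f) :
    CompReal (fun a => ((ratOf (f a) : ℚ) : ℝ)) := by
  refine ⟨fun p => f p.1, hf.comp Computable.fst, fun a n => ?_⟩
  simp only [sub_self, abs_zero]
  positivity

theorem RatComp.compReal {f : α → ℚ} (hf : RatComp f) : CompReal (fun a => ((f a : ℚ) : ℝ)) := by
  obtain ⟨f', hf', e⟩ := hf
  have := CompReal.ofRat hf'.to_comp
  simpa only [e] using this

theorem CompReal.of_bound {F : α → ℝ} (g : α × ℕ → ℕ × ℕ × ℕ) (hg : Computable g)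
    (C : α → ℕ) (hC : Computable C) (h : ∀ a n, |F a - ratOf (g (a, n))| ≤ C a / (n + 1)) :
    CompReal F := by
  refine ⟨fun p => g (p.1, (p.2 + 1) * C p.1), hg.comp (Computable.fst.pair
    (Primrec.nat_mul.to_comp.comp (Computable.succ.comp Computable.snd)
      (hC.comp Computable.fst))), fun a n => (h _ _).trans ?_⟩
  have h1 : (0 : ℝ) < n + 1 := by positivity
  have h2 : (0 : ℝ) ≤ C a := by positivity
  rw [div_le_div_iff₀ (by positivity) h1]
  push_cast
  nlinarith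

theorem CompReal.add {F G : α → ℝ} (hF : CompReal F)
    (hG : CompReal G) : CompReal (fun a => F a + G a) := by
  obtain ⟨f, hf, h⟩ := hF
  obtain ⟨g, hg, h'⟩ := hG
  refine CompReal.of_bound (fun p => qadd (f p) (g p)) (primrec_qadd.to_comp.comp hf hg)
    (fun _ => 2) (Computable.const 2) (fun a n => ?_)
  rw [ratOf_qadd]
  have e1 := h a n
  have e2 := h' a n
  have e3 : ((2 : ℕ) : ℝ) / (n + 1) = 1 / (n + 1) + 1 / (n + 1) := by push_cast; ring
  rw [e3]
  push_cast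
  calc |F a + G a - ((ratOf (f (a, n)) : ℝ) + (ratOf (g (a, n)) : ℝ))|
      = |(F a - ratOf (f (a, n))) + (G a - ratOf (g (a, n)))| := by ring_nf
    _ ≤ |F a - ratOf (f (a, n))| + |G a - ratOf (g (a, n))| := abs_add_le _ _
    _ ≤ _ := add_le_add e1 e2

theorem CompReal.neg {F : α → ℝ} (hF : CompReal F) :
    CompReal (fun a => - F a) := by
  obtain ⟨f, hf, h⟩ := hF
  refine ⟨fun p => qneg (f p), primrec_qneg.to_comp.comp hf, fun a n => ?_⟩
  rw [ratOf_qneg]
  push_cast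
  rw [← neg_sub', abs_neg]
  exact h a n

theorem CompReal.sub {F G : α → ℝ} (hF : CompReal F)
    (hG : CompReal G) : CompReal (fun a => F a - G a) := by
  simpa only [sub_eq_add_neg] using hF.add hG.neg

theorem abs_ratOf_le (p : ℕ × ℕ × ℕ) : |((ratOf p : ℚ) : ℝ)| ≤ p.1 + p.2.1 := by
  unfold ratOf
  push_cast
  have h1 : (1 : ℝ) ≤ (p.2.2 : ℝ) + 1 := by
    have : (0 : ℝ) ≤ (p.2.2 : ℝ) := by positivity
    linarith
  rw [abs_div, abs_of_pos (by linarith : (0 : ℝ) < (p.2.2 : ℝ) + 1)]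
  refine (div_le_self (abs_nonneg _) h1).trans ?_
  have := abs_sub (p.1 : ℝ) (p.2.1 : ℝ)
  simpa using this

theorem CompReal.mul {F G : α → ℝ} (hF : CompReal F)
    (hG : CompReal G) : CompReal (fun a => F a * G a) := by
  obtain ⟨f, hf, h⟩ := hF
  obtain ⟨g, hg, h'⟩ := hG
  have hb : ∀ (u : α × ℕ → ℕ × ℕ × ℕ), Computable u →
      Computable (fun a => (u (a, 0)).1 + (u (a, 0)).2.1 + 1) := by
    intro u hu
    have hu' : Computable (fun a => u (a, 0)) :=
      hu.comp (Computable.id.pair (Computable.const 0))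
    exact Computable.succ.comp (Primrec.nat_add.to_comp.comp (Computable.fst.comp hu')
      (Computable.fst.comp (Computable.snd.comp hu')))
  have hB : ∀ (H : α → ℝ) (u : α × ℕ → ℕ × ℕ × ℕ)
      (_ : ∀ a n, |H a - ratOf (u (a, n))| ≤ 1 / (n + 1)) (a : α),
      |H a| ≤ ((u (a, 0)).1 + (u (a, 0)).2.1 + 1 : ℕ) := by
    intro H u hu a
    have e1 := hu a 0
    have e2 := abs_ratOf_le (u (a, 0))
    simp only [Nat.cast_zero, zero_add, div_one] at e1
    have e3 : |H a| ≤ |H a - ratOf (u (a, 0))| + |((ratOf (u (a, 0)) : ℚ) : ℝ)| := by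
      have := abs_add_le (H a - ratOf (u (a, 0))) ((ratOf (u (a, 0)) : ℚ) : ℝ)
      simpa using this
    push_cast
    linarith
  refine CompReal.of_bound (fun p => qmul (f p) (g p)) (primrec_qmul.to_comp.comp hf hg)
    (fun a => ((f (a, 0)).1 + (f (a, 0)).2.1 + 1) + ((g (a, 0)).1 + (g (a, 0)).2.1 + 1) + 1)
    (Computable.succ.comp (Primrec.nat_add.to_comp.comp (hb f hf) (hb g hg))) (fun a n => ?_)
  rw [ratOf_qmul]
  have e1 := h a n
  have e2 := h' a n
  have b1 := hB F f h a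
  have b2 := hB G g h' a
  have hn : (1 : ℝ) / (n + 1) ≤ 1 := by
    rw [div_le_one (by positivity)]
    have : (0 : ℝ) ≤ n := by positivity
    linarith
  have hn0 : (0 : ℝ) ≤ 1 / (n + 1) := by positivity
  push_cast at b1 b2 ⊢
  have key : F a * G a - (ratOf (f (a, n)) : ℝ) * (ratOf (g (a, n)) : ℝ)
      = (F a - ratOf (f (a, n))) * G a + F a * (G a - ratOf (g (a, n)))
        - (F a - ratOf (f (a, n))) * (G a - ratOf (g (a, n))) := by ring
  rw [key]
  have t1 : |(F a - ratOf (f (a, n))) * G a| ≤ 1 / (n + 1) * ((g (a, 0)).1 + (g (a, 0)).2.1 + 1) := by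
    rw [abs_mul]; exact mul_le_mul e1 b2 (abs_nonneg _) hn0
  have t2 : |F a * (G a - ratOf (g (a, n)))| ≤ ((f (a, 0)).1 + (f (a, 0)).2.1 + 1) * (1 / (n + 1)) := by
    rw [abs_mul]; exact mul_le_mul b1 e2 (abs_nonneg _) (by positivity)
  have t3 : |(F a - ratOf (f (a, n))) * (G a - ratOf (g (a, n)))| ≤ 1 / (n + 1) * 1 := by
    rw [abs_mul]; exact mul_le_mul e1 (e2.trans hn) (abs_nonneg _) hn0
  refine (abs_sub _ _).trans ?_
  refine (add_le_add_left (abs_add_le _ _) _).trans ?_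
  refine (add_le_add (add_le_add t1 t2) t3).trans (le_of_eq ?_)
  ring

theorem CompReal.ite {c : α → Bool} (hc : Computable c)
    {F G : α → ℝ} (hF : CompReal F) (hG : CompReal G) :
    CompReal (fun a => if c a then F a else G a) := by
  obtain ⟨f, hf, h⟩ := hF
  obtain ⟨g, hg, h'⟩ := hG
  refine ⟨fun p => cond (c p.1) (f p) (g p),
    Computable.cond (hc.comp Computable.fst) hf hg, fun a n => ?_⟩
  cases hca : c a with
  | true => simpa [hca] using h a n
  | false => simpa [hca] using h' a n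

/-- Computable real constants. -/
theorem CompReal.ofReal {r : ℝ} (hr : IsComputableReal r) :
    CompReal (fun _ : α => r) := by
  obtain ⟨g, hg, h⟩ := hr
  exact ⟨fun p => g p.2, hg.comp Computable.snd, fun a n => h n⟩

/-! ### The exponential -/

theorem exp_neg_approx {x : ℝ} (h0 : 0 ≤ x) {N : ℕ} (hN : x ≤ N) (hN0 : 0 < N) :
    |Real.exp (-x) - (1 - x / N) ^ N| ≤ x ^ 2 / N := by
  have hNr : (0 : ℝ) < N := by exact_mod_cast hN0
  set t : ℝ := x / N with ht
  have ht0 : 0 ≤ t := by positivity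
  have ht1 : t ≤ 1 := by rw [ht, div_le_one hNr]; exact hN
  have e1 : Real.exp (-x) = Real.exp (-t) ^ N := by
    rw [← Real.exp_nat_mul]
    congr 1
    rw [ht]; field_simp
  have e2 : 1 - t ≤ Real.exp (-t) := by
    have := Real.add_one_le_exp (-t); linarith
  have e3 : Real.exp (-t) ≤ 1 := by
    rw [Real.exp_le_one_iff]; linarith
  have e4 : Real.exp (-t) - (1 - t) ≤ t ^ 2 := by
    have := Real.abs_exp_sub_one_sub_id_le (x := -t) (by rw [abs_neg, abs_of_nonneg ht0]; exact ht1)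
    have h5 := le_abs_self (Real.exp (-t) - 1 - -t)
    nlinarith
  rw [e1]
  have e5 : (1 - t) ^ N ≤ Real.exp (-t) ^ N := pow_le_pow_left₀ (by linarith) e2 N
  rw [abs_of_nonneg (by linarith)]
  have e6 : Real.exp (-t) ^ N - (1 - t) ^ N ≤ N * (Real.exp (-t) - (1 - t)) := by
    have h7 : ∀ n : ℕ, Real.exp (-t) ^ n - (1 - t) ^ n ≤ n * (Real.exp (-t) - (1 - t)) := by
      intro n
      induction n with
      | zero => simp
      | succ n ih =>
        have a1 : (0 : ℝ) ≤ 1 - t := by linarith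
        have a2 : Real.exp (-t) ^ n ≤ 1 := pow_le_one₀ (Real.exp_pos _).le e3
        have a3 : (1 - t) ^ n ≤ 1 := pow_le_one₀ a1 (by linarith)
        have a4 : 0 ≤ Real.exp (-t) - (1 - t) := by linarith
        have a5 : 0 ≤ Real.exp (-t) ^ n := by positivity
        have a6 : (0 : ℝ) ≤ n * (Real.exp (-t) - (1 - t)) := by positivity
        push_cast
        have : Real.exp (-t) ^ (n + 1) - (1 - t) ^ (n + 1)
          = Real.exp (-t) ^ n * (Real.exp (-t) - (1 - t))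
            + (1 - t) * (Real.exp (-t) ^ n - (1 - t) ^ n) := by ring
        rw [this]
        have b1 : Real.exp (-t) ^ n * (Real.exp (-t) - (1 - t)) ≤ 1 * (Real.exp (-t) - (1 - t)) :=
          mul_le_mul_of_nonneg_right a2 a4
        have b2 : (1 - t) * (Real.exp (-t) ^ n - (1 - t) ^ n)
            ≤ (1 - t) * (n * (Real.exp (-t) - (1 - t))) := mul_le_mul_of_nonneg_left ih a1
        have b3 : (1 - t) * (n * (Real.exp (-t) - (1 - t))) ≤ 1 * (n * (Real.exp (-t) - (1 - t))) :=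
          mul_le_mul_of_nonneg_right (by linarith) a6
        linarith
    exact h7 N
  refine e6.trans ?_
  have : x ^ 2 / N = N * t ^ 2 := by rw [ht]; field_simp
  rw [this]
  exact mul_le_mul_of_nonneg_left e4 hNr.le

theorem compReal_exp_neg {α : Type} [Primcodable α] {f : α → ℚ} (hf : RatComp f)
    (h0 : ∀ a, 0 ≤ f a) : CompReal (fun a => Real.exp (-((f a : ℚ) : ℝ))) := by
  obtain ⟨f', hf', e⟩ := hf
  have hX : ∀ a, ((f a : ℚ) : ℝ) ≤ ((f' a).1 + (f' a).2.1 : ℕ) := by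
    intro a
    rw [← e]
    push_cast
    exact (le_abs_self _).trans (abs_ratOf_le (f' a))
  have c1 : Primrec (fun p : α × ℕ => p.2 + ((f' p.1).1 + (f' p.1).2.1)) :=
    Primrec.nat_add.comp Primrec.snd (Primrec.nat_add.comp
      (Primrec.fst.comp (hf'.comp Primrec.fst))
      (Primrec.fst.comp (Primrec.snd.comp (hf'.comp Primrec.fst))))
  have c2 : RatComp (fun p : α × ℕ =>
      (1 - f p.1 * ((p.2 + ((f' p.1).1 + (f' p.1).2.1) + 1 : ℕ) : ℚ)⁻¹)
        ^ (p.2 + ((f' p.1).1 + (f' p.1).2.1) + 1)) := by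
    refine RatComp.pow (RatComp.sub ?_ (RatComp.mul ?_ (RatComp.inv (RatComp.natCast ?_)))) ?_
    · simpa using RatComp.const (α := α × ℕ) 1
    · exact RatComp.comp ⟨f', hf', e⟩ Primrec.fst
    · exact Primrec.succ.comp c1
    · exact Primrec.succ.comp c1
  obtain ⟨g, hg, eg⟩ := c2
  refine CompReal.of_bound g hg.to_comp (fun a => ((f' a).1 + (f' a).2.1) ^ 2)
    ?_ (fun a n => ?_)
  · have c3 : Primrec (fun a : α => (f' a).1 + (f' a).2.1) :=
      Primrec.nat_add.comp (Primrec.fst.comp hf') (Primrec.fst.comp (Primrec.snd.comp hf'))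
    have := (Primrec.nat_mul.comp c3 c3).to_comp
    refine this.of_eq (fun a => ?_)
    ring
  · rw [eg]
    have hx0 : (0 : ℝ) ≤ ((f a : ℚ) : ℝ) := by exact_mod_cast h0 a
    have h1 := hX a
    beta_reduce
    generalize (f' a).1 + (f' a).2.1 = X at h1 ⊢
    have h2 := exp_neg_approx hx0 (N := n + X + 1) (by
      push_cast
      have : (0 : ℝ) ≤ n := by positivity
      linarith) (by omega)
    push_cast at h2 ⊢
    rw [← div_eq_mul_inv]
    refine h2.trans ?_
    have hn : (0 : ℝ) ≤ n := by positivity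
    have hXr : (0 : ℝ) ≤ X := by positivity
    rw [div_le_div_iff₀ (by positivity) (by positivity)]
    have h3 : ((f a : ℚ) : ℝ) ^ 2 ≤ (X : ℝ) ^ 2 := pow_le_pow_left₀ hx0 h1 2
    nlinarith [mul_nonneg (sq_nonneg (X : ℝ)) hXr, mul_nonneg (sub_nonneg.2 h3) (by linarith : (0 : ℝ) ≤ n + 1)]

/-! ### The differential equation of the bump function -/

theorem glue_hasDerivAt (x : ℝ) :
    HasDerivAt expNegInvGlue (x⁻¹ ^ 2 * expNegInvGlue x) x := by
  have := expNegInvGlue.hasDerivAt_polynomial_eval_inv_mul 1 x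
  simpa using this

theorem lam_hasDerivAt (s : ℝ) :
    HasDerivAt lam ((s⁻¹ ^ 2 - (1 - s)⁻¹ ^ 2) * lam s) s := by
  have h1 := glue_hasDerivAt s
  have h2 : HasDerivAt (fun y : ℝ => expNegInvGlue (1 - y))
      ((1 - s)⁻¹ ^ 2 * expNegInvGlue (1 - s) * (-1)) s := by
    have h3 : HasDerivAt (fun y : ℝ => 1 - y) (-1) s := by
      simpa using (hasDerivAt_id s).const_sub 1
    exact (glue_hasDerivAt (1 - s)).comp s h3
  have h4 := h1.mul h2
  have e : lam = (expNegInvGlue * fun y : ℝ => expNegInvGlue (1 - y)) := rfl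
  rw [e]
  refine h4.congr_deriv ?_
  simp only [Pi.mul_apply]
  ring

/-- The polynomial coefficient `s²(1-s)²`. -/
noncomputable def Af (s : ℝ) : ℝ := s ^ 2 - 2 * s ^ 3 + s ^ 4

/-- The polynomial coefficient `1 - 2s`. -/
noncomputable def Bf (s : ℝ) : ℝ := 1 - 2 * s

theorem lam_ode : (fun s => Af s * deriv lam s) = fun s => Bf s * lam s := by
  funext s
  rw [(lam_hasDerivAt s).deriv]
  unfold Af Bf
  by_cases h0 : s = 0
  · subst h0; rw [flat_lam.zero 0 (Or.inl le_rfl)]; ring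
  by_cases h1 : s = 1
  · subst h1; rw [flat_lam.zero 1 (Or.inr le_rfl)]; ring
  have h2 : (1 - s) ≠ 0 := sub_ne_zero.2 (Ne.symm h1)
  field_simp
  ring

theorem deriv_Af : deriv Af = fun s => 2 * s - 6 * s ^ 2 + 4 * s ^ 3 := by
  funext s
  have : HasDerivAt Af (2 * s - 6 * s ^ 2 + 4 * s ^ 3) s := by
    have h := ((hasDerivAt_pow 2 s).sub ((hasDerivAt_pow 3 s).const_mul 2)).add (hasDerivAt_pow 4 s)
    refine h.congr_deriv ?_
    norm_num
    ring
  exact this.deriv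

theorem deriv_A1 : deriv (fun s : ℝ => 2 * s - 6 * s ^ 2 + 4 * s ^ 3)
    = fun s => 2 - 12 * s + 12 * s ^ 2 := by
  funext s
  have : HasDerivAt (fun s : ℝ => 2 * s - 6 * s ^ 2 + 4 * s ^ 3) (2 - 12 * s + 12 * s ^ 2) s := by
    have h := (((hasDerivAt_id s).const_mul 2).sub ((hasDerivAt_pow 2 s).const_mul 6)).add
      ((hasDerivAt_pow 3 s).const_mul 4)
    refine h.congr_deriv ?_
    norm_num
    ring
  exact this.deriv

theorem deriv_A2 : deriv (fun s : ℝ => 2 - 12 * s + 12 * s ^ 2)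
    = fun s => -12 + 24 * s := by
  funext s
  have : HasDerivAt (fun s : ℝ => 2 - 12 * s + 12 * s ^ 2) (-12 + 24 * s) s := by
    have h := (((hasDerivAt_id s).const_mul 12).const_sub 2).add
      ((hasDerivAt_pow 2 s).const_mul 12)
    refine h.congr_deriv ?_
    norm_num
    ring
  exact this.deriv

theorem deriv_A3 : deriv (fun s : ℝ => -12 + 24 * s) = fun _ => 24 := by
  funext s
  have : HasDerivAt (fun s : ℝ => -12 + 24 * s) 24 s := by
    have h := ((hasDerivAt_id s).const_mul 24).const_add (-12)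
    refine h.congr_deriv ?_
    norm_num
  exact this.deriv

theorem deriv_Bf : deriv Bf = fun _ => -2 := by
  funext s
  have : HasDerivAt Bf (-2) s := by
    have h := ((hasDerivAt_id s).const_mul 2).const_sub 1
    refine h.congr_deriv ?_
    norm_num
  exact this.deriv

theorem iter_A (i : ℕ) : iteratedDeriv i Af = match i with
    | 0 => Af
    | 1 => fun s => 2 * s - 6 * s ^ 2 + 4 * s ^ 3
    | 2 => fun s => 2 - 12 * s + 12 * s ^ 2
    | 3 => fun s => -12 + 24 * s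
    | 4 => fun _ => 24
    | _ + 5 => fun _ => 0 := by
  have h1 : iteratedDeriv 1 Af = fun s => 2 * s - 6 * s ^ 2 + 4 * s ^ 3 := by
    rw [iteratedDeriv_one, deriv_Af]
  have h2 : iteratedDeriv 2 Af = fun s => 2 - 12 * s + 12 * s ^ 2 := by
    rw [iteratedDeriv_succ, h1, deriv_A1]
  have h3 : iteratedDeriv 3 Af = fun s => -12 + 24 * s := by
    rw [iteratedDeriv_succ, h2, deriv_A2]
  have h4 : iteratedDeriv 4 Af = fun _ => 24 := by
    rw [iteratedDeriv_succ, h3, deriv_A3]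
  have h5 : ∀ n, iteratedDeriv (n + 5) Af = fun _ => 0 := by
    intro n
    induction n with
    | zero => rw [iteratedDeriv_succ, h4]; funext s; simp
    | succ n ih => rw [show n + 1 + 5 = (n + 5) + 1 by ring, iteratedDeriv_succ, ih]; funext s; simp
  match i with
  | 0 => exact iteratedDeriv_zero
  | 1 => exact h1
  | 2 => exact h2
  | 3 => exact h3
  | 4 => exact h4
  | n + 5 => exact h5 n

theorem iter_B (i : ℕ) : iteratedDeriv i Bf = match i with
    | 0 => Bf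
    | 1 => fun _ => -2
    | _ + 2 => fun _ => 0 := by
  have h1 : iteratedDeriv 1 Bf = fun _ => -2 := by
    rw [iteratedDeriv_one, deriv_Bf]
  have h5 : ∀ n, iteratedDeriv (n + 2) Bf = fun _ => 0 := by
    intro n
    induction n with
    | zero => rw [iteratedDeriv_succ, h1]; funext s; simp
    | succ n ih => rw [show n + 1 + 2 = (n + 2) + 1 by ring, iteratedDeriv_succ, ih]; funext s; simp
  match i with
  | 0 => exact iteratedDeriv_zero
  | 1 => exact h1
  | n + 2 => exact h5 n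

theorem contDiff_Af : ContDiff ℝ ∞ Af := by unfold Af; fun_prop
theorem contDiff_Bf : ContDiff ℝ ∞ Bf := by unfold Bf; fun_prop

/-- `z s k j` is the derivative of order `k - j` of `lam` at `s`, zero if `j > k`. -/
noncomputable def zz (s : ℝ) (k j : ℕ) : ℝ := if j ≤ k then iteratedDeriv (k - j) lam s else 0

theorem recurrence (s : ℝ) (k : ℕ) :
    Af s * iteratedDeriv (k + 1) lam s
      = (1 - 2 * s - k * (2 * s - 6 * s ^ 2 + 4 * s ^ 3)) * zz s k 0
        - (2 * k + k * (k - 1) * (1 - 6 * s + 6 * s ^ 2)) * zz s k 1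
        + 2 * (k * (k - 1) * (k - 2)) * (1 - 2 * s) * zz s k 2
        - k * (k - 1) * (k - 2) * (k - 3) * zz s k 3 := by
  have hl : ContDiff ℝ ∞ (deriv lam) := (contDiff_infty_iff_deriv.1 flat_lam.smooth).2
  have h := congrArg (fun g : ℝ → ℝ => iteratedDeriv k g s) lam_ode
  beta_reduce at h
  rw [iteratedDeriv_fun_mul ((contDiff_infty.1 contDiff_Af k).contDiffAt)
    ((contDiff_infty.1 hl k).contDiffAt),
    iteratedDeriv_fun_mul ((contDiff_infty.1 contDiff_Bf k).contDiffAt)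
    ((contDiff_infty.1 flat_lam.smooth k).contDiffAt)] at h
  have eL : ∑ i ∈ Finset.range (k + 1), (k.choose i : ℝ) * iteratedDeriv i Af s
        * iteratedDeriv (k - i) (deriv lam) s
      = ∑ i ∈ Finset.range 5, (k.choose i : ℝ) * iteratedDeriv i Af s
        * iteratedDeriv (k - i) (deriv lam) s := by
    have e1 : ∑ i ∈ Finset.range (k + 1), (k.choose i : ℝ) * iteratedDeriv i Af s
        * iteratedDeriv (k - i) (deriv lam) s
        = ∑ i ∈ Finset.range (k + 1 + 5), (k.choose i : ℝ) * iteratedDeriv i Af s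
        * iteratedDeriv (k - i) (deriv lam) s := by
      apply Finset.sum_subset (fun i hi => by simp at hi ⊢; omega)
      intro i _ hi
      have : k < i := by simpa using hi
      rw [Nat.choose_eq_zero_of_lt this]; simp
    have e2 : ∑ i ∈ Finset.range 5, (k.choose i : ℝ) * iteratedDeriv i Af s
        * iteratedDeriv (k - i) (deriv lam) s
        = ∑ i ∈ Finset.range (k + 1 + 5), (k.choose i : ℝ) * iteratedDeriv i Af s
        * iteratedDeriv (k - i) (deriv lam) s := by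
      apply Finset.sum_subset (fun i hi => by simp at hi ⊢; omega)
      intro i _ hi
      have : 5 ≤ i := by simpa using hi
      obtain ⟨m, rfl⟩ := Nat.exists_eq_add_of_le' this
      rw [iter_A]; simp
    rw [e1, e2]
  have eR : ∑ i ∈ Finset.range (k + 1), (k.choose i : ℝ) * iteratedDeriv i Bf s
        * iteratedDeriv (k - i) lam s
      = ∑ i ∈ Finset.range 2, (k.choose i : ℝ) * iteratedDeriv i Bf s
        * iteratedDeriv (k - i) lam s := by
    have e1 : ∑ i ∈ Finset.range (k + 1), (k.choose i : ℝ) * iteratedDeriv i Bf s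
        * iteratedDeriv (k - i) lam s
        = ∑ i ∈ Finset.range (k + 1 + 2), (k.choose i : ℝ) * iteratedDeriv i Bf s
        * iteratedDeriv (k - i) lam s := by
      apply Finset.sum_subset (fun i hi => by simp at hi ⊢; omega)
      intro i _ hi
      have : k < i := by simpa using hi
      rw [Nat.choose_eq_zero_of_lt this]; simp
    have e2 : ∑ i ∈ Finset.range 2, (k.choose i : ℝ) * iteratedDeriv i Bf s
        * iteratedDeriv (k - i) lam s
        = ∑ i ∈ Finset.range (k + 1 + 2), (k.choose i : ℝ) * iteratedDeriv i Bf s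
        * iteratedDeriv (k - i) lam s := by
      apply Finset.sum_subset (fun i hi => by simp at hi ⊢; omega)
      intro i _ hi
      have : 2 ≤ i := by simp only [Finset.mem_range, not_lt] at hi; exact hi
      obtain ⟨m, rfl⟩ := Nat.exists_eq_add_of_le' this
      rw [iter_B]; simp
    rw [e1, e2]
  rw [eL, eR] at h
  simp only [Finset.sum_range_succ, Finset.sum_range_zero, zero_add, iter_A, iter_B,
    ← iteratedDeriv_succ'] at h
  have c0 : (k.choose 0 : ℝ) = 1 := by simp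
  have c1 : (k.choose 1 : ℝ) = k := by simp
  have c2 : (k.choose 2 : ℝ) = k * (k - 1) / 2 := Nat.cast_choose_two ℝ k
  have c3' : ∀ k : ℕ, (k.choose 3 : ℝ) = k * (k - 1) * (k - 2) / 6 := by
    intro k
    induction k with
    | zero => simp
    | succ k ih =>
      rw [Nat.choose_succ_succ' k 2]
      push_cast
      rw [ih, Nat.cast_choose_two ℝ k]
      ring
  have c4' : ∀ k : ℕ, (k.choose 4 : ℝ) = k * (k - 1) * (k - 2) * (k - 3) / 24 := by
    intro k
    induction k with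
    | zero => simp
    | succ k ih =>
      rw [Nat.choose_succ_succ' k 3]
      push_cast
      rw [ih, c3']
      ring
  have c3 := c3' k
  have c4 := c4' k
  rw [c0, c1, c2, c3, c4] at h
  unfold Bf at h
  have z0 : zz s k 0 = iteratedDeriv k lam s := by simp [zz]
  have d1 : (k : ℝ) * iteratedDeriv (k - 1 + 1) lam s = k * zz s k 0 := by
    rcases Nat.eq_zero_or_pos k with hk | hk
    · simp [hk]
    · rw [z0, Nat.sub_add_cancel hk]
  have d1' : (k : ℝ) * iteratedDeriv (k - 1) lam s = k * zz s k 1 := by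
    rcases Nat.eq_zero_or_pos k with hk | hk
    · simp [hk]
    · unfold zz
      rw [if_pos (show 1 ≤ k from hk)]
  have d2 : (k : ℝ) * (k - 1) * iteratedDeriv (k - 2 + 1) lam s = k * (k - 1) * zz s k 1 := by
    rcases k with _ | _ | k
    · simp
    · simp
    · simp [zz]
  have d3 : (k : ℝ) * (k - 1) * (k - 2) * iteratedDeriv (k - 3 + 1) lam s
      = k * (k - 1) * (k - 2) * zz s k 2 := by
    rcases k with _ | _ | _ | k
    · simp
    · simp
    · norm_num
    · simp [zz]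
  have d4 : (k : ℝ) * (k - 1) * (k - 2) * (k - 3) * iteratedDeriv (k - 4 + 1) lam s
      = k * (k - 1) * (k - 2) * (k - 3) * zz s k 3 := by
    rcases k with _ | _ | _ | _ | k
    · simp
    · simp
    · norm_num
    · norm_num
    · simp [zz]
  simp only [Nat.sub_zero] at h
  rw [← z0] at h
  linear_combination h - (2 * s - 6 * s ^ 2 + 4 * s ^ 3) * d1 - (2 - 12 * s + 12 * s ^ 2) / 2 * d2
    - (-12 + 24 * s) / 6 * d3 - d4 - 2 * d1'

/-! ### The recursion for the derivatives on the open interval -/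

/-- One step of the recursion for the successive derivatives. -/
def stp {K : Type} [Field K] (s : K) (k : ℕ) (y : K × K × K × K) : K × K × K × K :=
  ((s ^ 2 - 2 * s ^ 3 + s ^ 4)⁻¹ *
    ((1 - 2 * s - k * (2 * s - 6 * s ^ 2 + 4 * s ^ 3)) * y.1
        - (2 * k + k * (k - 1) * (1 - 6 * s + 6 * s ^ 2)) * y.2.1
        + 2 * (k * (k - 1) * (k - 2)) * (1 - 2 * s) * y.2.2.1
        - k * (k - 1) * (k - 2) * (k - 3) * y.2.2.2), y.1, y.2.1, y.2.2.1)

/-- The four latest derivatives divided by the value. -/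
def Rst {K : Type} [Field K] (s : K) (k : ℕ) : K × K × K × K :=
  Nat.rec (1, 0, 0, 0) (fun k y => stp s k y) k

theorem Rst_spec {s : ℝ} (h0 : 0 < s) (h1 : s < 1) (k : ℕ) :
    (Rst s k).1 * lam s = zz s k 0 ∧ (Rst s k).2.1 * lam s = zz s k 1 ∧
      (Rst s k).2.2.1 * lam s = zz s k 2 ∧ (Rst s k).2.2.2 * lam s = zz s k 3 := by
  induction k with
  | zero => simp [Rst, zz]
  | succ k ih =>
    obtain ⟨i0, i1, i2, i3⟩ := ih
    have e : Rst s (k + 1) = stp s k (Rst s k) := rfl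
    have hz : ∀ j, zz s (k + 1) (j + 1) = zz s k j := by
      intro j; unfold zz; simp
    have hA : s ^ 2 - 2 * s ^ 3 + s ^ 4 ≠ 0 := by
      have : s ^ 2 - 2 * s ^ 3 + s ^ 4 = (s * (1 - s)) ^ 2 := by ring
      rw [this]
      have : 0 < s * (1 - s) := mul_pos h0 (by linarith)
      positivity
    refine ⟨?_, ?_, ?_, ?_⟩
    · have hr := recurrence s k
      have hz0 : zz s (k + 1) 0 = iteratedDeriv (k + 1) lam s := by simp [zz]
      rw [← i0, ← i1, ← i2, ← i3] at hr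
      rw [e, hz0]
      unfold stp
      unfold Af at hr
      simp only []
      rw [mul_assoc, inv_mul_eq_iff_eq_mul₀ hA, hr]
      ring
    · rw [e, hz 0]; exact i0
    · rw [e, hz 1]; exact i1
    · rw [e, hz 2]; exact i2

theorem iteratedDeriv_lam_eq {s : ℝ} (h0 : 0 < s) (h1 : s < 1) (k : ℕ) :
    iteratedDeriv k lam s = (Rst s k).1 * lam s := by
  rw [(Rst_spec h0 h1 k).1]; simp [zz]

theorem Rst_cast (s : ℚ) (k : ℕ) : Rst (s : ℝ) k =
    (((Rst s k).1 : ℝ), ((Rst s k).2.1 : ℝ), ((Rst s k).2.2.1 : ℝ), ((Rst s k).2.2.2 : ℝ)) := by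
  induction k with
  | zero => simp [Rst]
  | succ k ih =>
    have e : Rst (s : ℝ) (k + 1) = stp (s : ℝ) k (Rst (s : ℝ) k) := rfl
    have e' : Rst s (k + 1) = stp s k (Rst s k) := rfl
    rw [e, e', ih]
    unfold stp
    push_cast
    rfl

theorem RatComp.ofNat (n : ℕ) [n.AtLeastTwo] :
    RatComp (fun _ : α => (OfNat.ofNat n : ℚ)) := by
  simpa only [Nat.cast_ofNat] using RatComp.const (α := α) (OfNat.ofNat n)

theorem RatComp.one : RatComp (fun _ : α => (1 : ℚ)) := by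
  simpa using RatComp.const (α := α) 1

theorem RatComp.powc {f : α → ℚ} (hf : RatComp f) (n : ℕ) : RatComp (fun a => f a ^ n) :=
  hf.pow (Primrec.const n)

theorem ratComp_stp {s : α → ℚ} (hs : RatComp s) {k : α → ℕ} (hk : Primrec k)
    {y0 y1 y2 y3 : α → ℚ} (h0 : RatComp y0) (h1 : RatComp y1) (h2 : RatComp y2)
    (h3 : RatComp y3) : RatComp (fun a => (stp (s a) (k a) (y0 a, y1 a, y2 a, y3 a)).1) := by
  unfold stp
  have hK := RatComp.natCast hk
  have n1 : RatComp (fun _ : α => (1 : ℚ)) := RatComp.one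
  have n2 : RatComp (fun _ : α => (2 : ℚ)) := RatComp.ofNat 2
  have n3 : RatComp (fun _ : α => (3 : ℚ)) := RatComp.ofNat 3
  have n4 : RatComp (fun _ : α => (4 : ℚ)) := RatComp.ofNat 4
  have n6 : RatComp (fun _ : α => (6 : ℚ)) := RatComp.ofNat 6
  have A := ((hs.powc 2).sub (n2.mul (hs.powc 3))).add (hs.powc 4)
  have B := (n1.sub (n2.mul hs)).sub
    (hK.mul (((n2.mul hs).sub (n6.mul (hs.powc 2))).add (n4.mul (hs.powc 3))))
  have C := (n2.mul hK).add ((hK.mul (hK.sub n1)).mul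
    ((n1.sub (n6.mul hs)).add (n6.mul (hs.powc 2))))
  have D := (n2.mul ((hK.mul (hK.sub n1)).mul (hK.sub n2))).mul (n1.sub (n2.mul hs))
  have E := ((hK.mul (hK.sub n1)).mul (hK.sub n2)).mul (hK.sub n3)
  exact A.inv.mul ((((B.mul h0).sub (C.mul h1)).add (D.mul h2)).sub (E.mul h3))

/-- Four codes. -/
abbrev Cod4 : Type := (ℕ × ℕ × ℕ) × (ℕ × ℕ × ℕ) × (ℕ × ℕ × ℕ) × (ℕ × ℕ × ℕ)

/-- Values of four codes. -/
def val4 (Y : Cod4) : ℚ × ℚ × ℚ × ℚ := (ratOf Y.1, ratOf Y.2.1, ratOf Y.2.2.1, ratOf Y.2.2.2)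

/-- Initial codes. -/
def c04 : Cod4 := ((1, 0, 0), (0, 0, 0), (0, 0, 0), (0, 0, 0))

/-- One step on codes. -/
def stepC (g : (ℕ × ℕ × ℕ) × ℕ × Cod4 → ℕ × ℕ × ℕ) (p : ℕ × ℕ × ℕ) (x : ℕ × Cod4) : Cod4 :=
  (g (p, x), x.2.1, x.2.2.1, x.2.2.2.1)

/-- The recursion on codes. -/
def recC (g : (ℕ × ℕ × ℕ) × ℕ × Cod4 → ℕ × ℕ × ℕ) (p : ℕ × ℕ × ℕ) (n : ℕ) : Cod4 :=
  Nat.rec c04 (fun k y => stepC g p (k, y)) n

theorem primrec_stepC {g : (ℕ × ℕ × ℕ) × ℕ × Cod4 → ℕ × ℕ × ℕ} (hg : Primrec g) :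
    Primrec₂ (stepC g) := by
  have q2 : Primrec (fun x : (ℕ × ℕ × ℕ) × ℕ × Cod4 => x.2.2) := Primrec.snd.comp Primrec.snd
  have q3 : Primrec (fun x : (ℕ × ℕ × ℕ) × ℕ × Cod4 => x.2.2.2) := Primrec.snd.comp q2
  have q4 : Primrec (fun x : (ℕ × ℕ × ℕ) × ℕ × Cod4 => x.2.2.2.2) := Primrec.snd.comp q3
  have h : Primrec (fun x : (ℕ × ℕ × ℕ) × ℕ × Cod4 =>
      ((g x, x.2.2.1, x.2.2.2.1, x.2.2.2.2.1) : Cod4)) :=
    hg.pair ((Primrec.fst.comp q2).pair ((Primrec.fst.comp q3).pair (Primrec.fst.comp q4)))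
  exact h.to₂

theorem primrec_recC {g : (ℕ × ℕ × ℕ) × ℕ × Cod4 → ℕ × ℕ × ℕ} (hg : Primrec g) :
    Primrec₂ (recC g) := by
  have c0 : Primrec (fun _ : ℕ × ℕ × ℕ => c04) := Primrec.const _
  exact Primrec.nat_rec c0 (primrec_stepC hg)

theorem val4_recC {g : (ℕ × ℕ × ℕ) × ℕ × Cod4 → ℕ × ℕ × ℕ}
    (e : ∀ x, ratOf (g x) = (stp (ratOf x.1) x.2.1 (val4 x.2.2)).1) (p : ℕ × ℕ × ℕ) (n : ℕ) :
    val4 (recC g p n) = Rst (ratOf p) n := by
  induction n with
  | zero => simp [recC, c04, val4, Rst, ratOf]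
  | succ n ih =>
    have h1 : Rst (ratOf p) (n + 1) = stp (ratOf p) n (Rst (ratOf p) n) := rfl
    have h2 : recC g p (n + 1) = (g (p, n, recC g p n), (recC g p n).1, (recC g p n).2.1,
      (recC g p n).2.2.1) := rfl
    rw [h1, ← ih, h2]
    generalize recC g p n = W
    unfold val4
    simp only [e]
    rfl

theorem ratComp_Rst : RatComp (fun q : ℕ × (ℕ × ℕ × ℕ) => (Rst (ratOf q.2) q.1).1) := by
  have key : RatComp (fun x : (ℕ × ℕ × ℕ) × ℕ × Cod4 =>
      (stp (ratOf x.1) x.2.1 (val4 x.2.2)).1) := by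
    have q1 : Primrec (fun x : (ℕ × ℕ × ℕ) × ℕ × Cod4 => x.2.1) :=
      Primrec.fst.comp Primrec.snd
    have q2 : Primrec (fun x : (ℕ × ℕ × ℕ) × ℕ × Cod4 => x.2.2) := Primrec.snd.comp Primrec.snd
    have q3 : Primrec (fun x : (ℕ × ℕ × ℕ) × ℕ × Cod4 => x.2.2.2) := Primrec.snd.comp q2
    have q4 : Primrec (fun x : (ℕ × ℕ × ℕ) × ℕ × Cod4 => x.2.2.2.2) := Primrec.snd.comp q3
    have r0 : RatComp (fun x : (ℕ × ℕ × ℕ) × ℕ × Cod4 => ratOf x.1) :=
      RatComp.code Primrec.fst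
    have r1 : RatComp (fun x : (ℕ × ℕ × ℕ) × ℕ × Cod4 => ratOf x.2.2.1) :=
      RatComp.code (Primrec.fst.comp q2)
    have r2 : RatComp (fun x : (ℕ × ℕ × ℕ) × ℕ × Cod4 => ratOf x.2.2.2.1) :=
      RatComp.code (Primrec.fst.comp q3)
    have r3 : RatComp (fun x : (ℕ × ℕ × ℕ) × ℕ × Cod4 => ratOf x.2.2.2.2.1) :=
      RatComp.code (Primrec.fst.comp q4)
    have r4 : RatComp (fun x : (ℕ × ℕ × ℕ) × ℕ × Cod4 => ratOf x.2.2.2.2.2) :=
      RatComp.code (Primrec.snd.comp q4)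
    exact ratComp_stp r0 q1 r1 r2 r3 r4
  obtain ⟨g, hg, e⟩ := key
  refine ⟨fun q => (recC g q.2 q.1).1,
    Primrec.fst.comp ((primrec_recC hg).comp Primrec.snd Primrec.fst), fun q => ?_⟩
  beta_reduce
  rw [← val4_recC e]
  rfl

/-- The condition `0 < s < 1` on codes. -/
def inUnit (p : ℕ × ℕ × ℕ) : Bool := decide (p.2.1 < p.1) && decide (p.1 < p.2.1 + p.2.2 + 1)

theorem inUnit_iff (p : ℕ × ℕ × ℕ) : inUnit p = true ↔ 0 < ratOf p ∧ ratOf p < 1 := by
  unfold inUnit ratOf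
  have h1 : (0 : ℚ) < (p.2.2 : ℚ) + 1 := by positivity
  rw [Bool.and_eq_true, decide_eq_true_iff, decide_eq_true_iff, div_lt_one h1]
  constructor
  · rintro ⟨h2, h3⟩
    have h2' : (p.2.1 : ℚ) < p.1 := by exact_mod_cast h2
    have h3' : (p.1 : ℚ) < p.2.1 + p.2.2 + 1 := by exact_mod_cast h3
    exact ⟨div_pos (by linarith) h1, by linarith⟩
  · rintro ⟨h2, h3⟩
    have h2' : (0 : ℚ) < (p.1 : ℚ) - p.2.1 := by
      by_contra hc
      exact absurd h2 (not_lt.2 (div_nonpos_of_nonpos_of_nonneg (not_lt.1 hc) h1.le))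
    constructor
    · have : (p.2.1 : ℚ) < p.1 := by linarith
      exact_mod_cast this
    · have : (p.1 : ℚ) < p.2.1 + p.2.2 + 1 := by linarith
      exact_mod_cast this

theorem computable_inUnit : Computable inUnit := by
  unfold inUnit
  have f1 : Primrec (fun x : ℕ × ℕ × ℕ => x.1) := Primrec.fst
  have f2 : Primrec (fun x : ℕ × ℕ × ℕ => x.2.1) := Primrec.fst.comp Primrec.snd
  have f3 : Primrec (fun x : ℕ × ℕ × ℕ => x.2.2) := Primrec.snd.comp Primrec.snd
  have d1 : Primrec (fun x : ℕ × ℕ × ℕ => decide (x.2.1 < x.1)) :=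
    (Primrec.nat_lt.comp f2 f1).decide
  have d2 : Primrec (fun x : ℕ × ℕ × ℕ => decide (x.1 < x.2.1 + x.2.2 + 1)) :=
    (Primrec.nat_lt.comp f1 (Primrec.succ.comp (Primrec.nat_add.comp f2 f3))).decide
  exact (Primrec.and.comp d1 d2).to_comp

theorem lam_eq_exp {s : ℝ} (h0 : 0 < s) (h1 : s < 1) :
    lam s = Real.exp (-(s * (1 - s))⁻¹) := by
  have h2 : 0 < 1 - s := by linarith
  unfold lam expNegInvGlue
  rw [if_neg (not_le.2 h0), if_neg (not_le.2 h2), ← Real.exp_add]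
  congr 1
  field_simp
  ring

theorem compReal_lam : CompReal (fun q : ℕ × (ℕ × ℕ × ℕ) =>
    iteratedDeriv q.1 lam ((ratOf q.2 : ℚ) : ℝ)) := by
  have hs : RatComp (fun q : ℕ × (ℕ × ℕ × ℕ) => ratOf q.2) := RatComp.code Primrec.snd
  have hE := compReal_exp_neg ((hs.mul (RatComp.one.sub hs)).inv.pos)
    (fun a => le_max_right _ _)
  have hR := ratComp_Rst.compReal
  have h0 : CompReal (fun _ : ℕ × (ℕ × ℕ × ℕ) => ((ratOf (0, 0, 0) : ℚ) : ℝ)) :=
    CompReal.ofRat (Computable.const _)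
  have h := CompReal.ite (computable_inUnit.comp Computable.snd) (hR.mul hE) h0
  have e : (fun q : ℕ × (ℕ × ℕ × ℕ) => iteratedDeriv q.1 lam ((ratOf q.2 : ℚ) : ℝ))
      = fun a : ℕ × (ℕ × ℕ × ℕ) => if inUnit a.2 = true then
        (((Rst (ratOf a.2) a.1).1 : ℚ) : ℝ) *
          Real.exp (-((max ((ratOf a.2 * (1 - ratOf a.2))⁻¹) 0 : ℚ) : ℝ))
        else ((ratOf (0, 0, 0) : ℚ) : ℝ) := by
    funext q
    by_cases hq : inUnit q.2 = true
    · rw [if_pos hq]
      obtain ⟨q0, q1⟩ := (inUnit_iff q.2).1 hq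
      have r0 : (0 : ℝ) < ((ratOf q.2 : ℚ) : ℝ) := by exact_mod_cast q0
      have r1 : ((ratOf q.2 : ℚ) : ℝ) < 1 := by exact_mod_cast q1
      rw [iteratedDeriv_lam_eq r0 r1, lam_eq_exp r0 r1, Rst_cast]
      have : 0 ≤ (ratOf q.2 * (1 - ratOf q.2))⁻¹ :=
        inv_nonneg.2 (mul_nonneg q0.le (by linarith))
      rw [max_eq_left this]
      push_cast
      rfl
    · rw [if_neg hq]
      have hz : ((ratOf q.2 : ℚ) : ℝ) ≤ 0 ∨ 1 ≤ ((ratOf q.2 : ℚ) : ℝ) := by
        by_contra hc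
        push Not at hc
        exact hq ((inUnit_iff q.2).2 ⟨by exact_mod_cast hc.1, by exact_mod_cast hc.2⟩)
      rw [(flat_lam.iteratedDeriv q.1).zero _ hz]
      simp [ratOf]
  rw [e]
  exact h

theorem compReal_lam_fract : CompReal (fun q : ℕ × (ℕ × ℕ × ℕ) =>
    iteratedDeriv q.1 lam (Int.fract ((ratOf q.2 : ℚ) : ℝ))) := by
  have h : Computable (fun q : ℕ × (ℕ × ℕ × ℕ) => (q.1, qfract q.2)) :=
    Computable.fst.pair (primrec_qfract.to_comp.comp Computable.snd)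
  have := compReal_lam.comp h
  simpa only [ratOf_qfract, Rat.cast_fract] using this

end Vale.Agent.P113
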