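import Vale.Agent.P113.Traj

open Set Filter Topology MeasureTheory
open scoped ContDiff

namespace Vale.Agent.P113

theorem pd_zero_iter (m : ℕ) (h : ℝ → ℝ) :
    (pd 0)^[m] (fun y : R3 => h (y 0)) = fun y => iteratedDeriv m h (y 0) := by
  induction m generalizing h with
  | zero => simp
  | succ m ih =>
    rw [Function.iterate_succ_apply, pd_proj]
    simp only [if_true]
    rw [ih]
    funext y
    rw [iteratedDeriv_succ']

theorem pd_iter_zero (j : Fin 3) (m : ℕ) :
    (pd j)^[m] (fun _ : R3 => (0 : ℝ)) = fun _ => 0 := by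
  induction m with
  | zero => rfl
  | succ m ih => rw [Function.iterate_succ_apply, pd_const, ih]

theorem pd_other_iter {j : Fin 3} (hj : j ≠ 0) (m : ℕ) (h : ℝ → ℝ) :
    (pd j)^[m] (fun y : R3 => h (y 0)) = if m = 0 then fun y => h (y 0) else fun _ => 0 := by
  cases m with
  | zero => simp
  | succ m =>
    rw [Function.iterate_succ_apply, pd_proj, if_neg (Nat.succ_ne_zero m)]
    simp only [if_neg hj]
    exact pd_iter_zero j m

theorem spatial_formula (a : ℕ × ℕ × ℕ) (h : ℝ → ℝ) (x : R3) :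
    ((pd 0)^[a.1] ((pd 1)^[a.2.1] ((pd 2)^[a.2.2] (fun y : R3 => h (y 0))))) x =
      if a.2.1 = 0 ∧ a.2.2 = 0 then iteratedDeriv a.1 h (x 0) else 0 := by
  rw [pd_other_iter (by decide : (2 : Fin 3) ≠ 0)]
  by_cases h2 : a.2.2 = 0
  · rw [if_pos h2, pd_other_iter (by decide : (1 : Fin 3) ≠ 0)]
    by_cases h1 : a.2.1 = 0
    · rw [if_pos h1, if_pos ⟨h1, h2⟩, pd_zero_iter]
    · rw [if_neg h1, if_neg (fun h => h1 h.1), pd_iter_zero]
  · rw [if_neg h2, if_neg (fun h => h2 h.2), pd_iter_zero, pd_iter_zero]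

theorem mixed_formula (k : ℕ) (a : ℕ × ℕ × ℕ) (H : ℝ → ℝ → ℝ) (t : ℝ) (x : R3) :
    mixedDeriv k a (fun s y => H s (y 0)) t x = if a.2.1 = 0 ∧ a.2.2 = 0 then
      iteratedDerivWithin k (fun s => iteratedDeriv a.1 (H s) (x 0)) (Ici 0) t else 0 := by
  unfold mixedDeriv
  simp only [spatial_formula]
  by_cases h : a.2.1 = 0 ∧ a.2.2 = 0
  · simp only [if_pos h]
  · simp only [if_neg h]
    simp

theorem within_eq {g : ℝ → ℝ} (hg : ContDiff ℝ ∞ g) (k : ℕ) {t : ℝ} (ht : 0 ≤ t) :
    iteratedDerivWithin k g (Ici 0) t = iteratedDeriv k g t :=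
  iteratedDerivWithin_eq_iteratedDeriv (uniqueDiffOn_Ici 0)
    ((contDiff_infty.1 hg k).contDiffAt) ht

theorem iter_deriv (k : ℕ) (g : ℝ → ℝ) : iteratedDeriv k (deriv g) = iteratedDeriv (k + 1) g := by
  rw [iteratedDeriv_succ']

theorem iter_b2 (k : ℕ) (t : ℝ) :
    iteratedDeriv k b2 t = iteratedDeriv k bb t - iteratedDeriv k lam t := by
  have e : b2 = bb - lam := rfl
  rw [e, iteratedDeriv_sub ((contDiff_infty.1 bb_contDiff k).contDiffAt)
    ((contDiff_infty.1 flat_lam.smooth k).contDiffAt)]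

theorem iter_bb (k : ℕ) (t : ℝ) : iteratedDeriv k bb t = iteratedDeriv k lam (Int.fract t) := by
  unfold bb
  rw [per_iteratedDeriv flat_lam]
  rfl

theorem mixed_comp0 (ν P : ℝ) (k : ℕ) (a : ℕ × ℕ × ℕ) {t : ℝ} (ht : 0 ≤ t) (x : R3) :
    mixedDeriv k a (fun s y => fSol ν P s y 0) t x =
      if a.2.1 = 0 ∧ a.2.2 = 0 then
        (if a.1 = 0 then P * iteratedDeriv (k + 1) lam t else 0) else 0 := by
  have e : (fun (s : ℝ) (y : R3) => fSol ν P s y 0) =
      fun s y => (fun (s : ℝ) (_ : ℝ) => P * deriv lam s) s (y 0) := by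
    funext s y
    simp [fSol]
  rw [e]
  refine (mixed_formula k a (fun s _ => P * deriv lam s) t x).trans ?_
  congr 1
  simp only [iteratedDeriv_const]
  by_cases h : a.1 = 0
  · simp only [if_pos h]
    rw [within_eq (contDiff_const.mul deriv_lam_contDiff) k ht, iteratedDeriv_const_mul_field,
      iter_deriv]
  · simp only [if_neg h]
    simp

theorem mixed_comp1 (ν P : ℝ) (k : ℕ) (a : ℕ × ℕ × ℕ) {t : ℝ} (ht : 0 ≤ t) (x : R3) :
    mixedDeriv k a (fun s y => fSol ν P s y 1) t x =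
      if a.2.1 = 0 ∧ a.2.2 = 0 then
        (iteratedDeriv (k + 1) lam (Int.fract t) - iteratedDeriv (k + 1) lam t) *
            iteratedDeriv a.1 lam (Int.fract (x 0))
          - ν * ((iteratedDeriv k lam (Int.fract t) - iteratedDeriv k lam t) *
            iteratedDeriv (a.1 + 2) lam (Int.fract (x 0))) else 0 := by
  have e : (fun (s : ℝ) (y : R3) => fSol ν P s y 1) =
      fun s y => (fun (s z : ℝ) => deriv b2 s * bb z - ν * (b2 s * deriv (deriv bb) z)) s (y 0) := by
    funext s y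
    simp [fSol]
  rw [e]
  refine (mixed_formula k a
    (fun s z => deriv b2 s * bb z - ν * (b2 s * deriv (deriv bb) z)) t x).trans ?_
  congr 1
  have h1 : ∀ s, iteratedDeriv a.1 (fun z => deriv b2 s * bb z
      - ν * (b2 s * deriv (deriv bb) z)) (x 0) =
      deriv b2 s * iteratedDeriv a.1 bb (x 0) - ν * (b2 s * iteratedDeriv (a.1 + 2) bb (x 0)) := by
    intro s
    have c1 : ContDiffAt ℝ a.1 (fun z => deriv b2 s * bb z) (x 0) :=
      (contDiff_const.mul (contDiff_infty.1 bb_contDiff a.1)).contDiffAt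
    have c2 : ContDiffAt ℝ a.1 (fun z => ν * (b2 s * deriv (deriv bb) z)) (x 0) :=
      (contDiff_const.mul (contDiff_const.mul (contDiff_infty.1 deriv2_bb_contDiff a.1))).contDiffAt
    have := iteratedDeriv_sub c1 c2
    rw [Pi.sub_def] at this
    rw [this]
    rw [iteratedDeriv_const_mul_field, iteratedDeriv_const_mul_field,
      iteratedDeriv_const_mul_field, iter_deriv, iter_deriv]
  simp only [h1]
  have c1 : ContDiff ℝ ∞ (fun s => deriv b2 s * iteratedDeriv a.1 bb (x 0)) :=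
    deriv_b2_contDiff.mul contDiff_const
  have c2 : ContDiff ℝ ∞ (fun s => ν * (b2 s * iteratedDeriv (a.1 + 2) bb (x 0))) :=
    contDiff_const.mul (b2_contDiff.mul contDiff_const)
  rw [within_eq (c1.sub c2) k ht]
  have := iteratedDeriv_sub (contDiff_infty.1 c1 k).contDiffAt (contDiff_infty.1 c2 k).contDiffAt
    (x := t)
  rw [Pi.sub_def] at this
  rw [this, iteratedDeriv_const_mul_field]
  have m1 : iteratedDeriv k (fun s => deriv b2 s * iteratedDeriv a.1 bb (x 0)) t =
      iteratedDeriv (k + 1) b2 t * iteratedDeriv a.1 bb (x 0) := by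
    have : (fun s => deriv b2 s * iteratedDeriv a.1 bb (x 0)) =
        fun s => iteratedDeriv a.1 bb (x 0) * deriv b2 s := by funext s; ring
    rw [this, iteratedDeriv_const_mul_field, iter_deriv, mul_comm]
  have m2 : iteratedDeriv k (fun s => b2 s * iteratedDeriv (a.1 + 2) bb (x 0)) t =
      iteratedDeriv k b2 t * iteratedDeriv (a.1 + 2) bb (x 0) := by
    have : (fun s => b2 s * iteratedDeriv (a.1 + 2) bb (x 0)) =
        fun s => iteratedDeriv (a.1 + 2) bb (x 0) * b2 s := by funext s; ring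
    rw [this, iteratedDeriv_const_mul_field, mul_comm]
  rw [m1, m2, iter_b2, iter_b2, iter_bb, iter_bb, iter_bb, iter_bb]

theorem mixed_comp2 (ν P : ℝ) (k : ℕ) (a : ℕ × ℕ × ℕ) (t : ℝ) (x : R3) :
    mixedDeriv k a (fun s y => fSol ν P s y 2) t x = 0 := by
  have e : (fun (s : ℝ) (y : R3) => fSol ν P s y 2) =
      fun s y => (fun (_ : ℝ) (_ : ℝ) => (0 : ℝ)) s (y 0) := by
    funext s y
    simp [fSol]
  rw [e]
  refine (mixed_formula k a (fun _ _ => (0 : ℝ)) t x).trans ?_
  simp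

end Vale.Agent.P113
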