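import Vale.Agent.P113.Amp
import Vale.Agent.P113.Formula
import Vale.Agent.P113.Comp

open Set

namespace Vale.Agent.P113

/-- Queries. -/
abbrev Query : Type :=
  (Fin 3 × ℕ × (ℕ × ℕ × ℕ)) × ((ℕ × ℕ × ℕ) × (ℕ × ℕ × ℕ) × (ℕ × ℕ × ℕ) × (ℕ × ℕ × ℕ)) ×
    (ℕ × ℕ × ℕ)

/-- The derivative asked for. -/
noncomputable def valueFn (ν : ℝ) (p : (Machine × List ℕ) × Query) : ℝ :=
  cond (decide (p.2.1.2.2.2.1 = 0 ∧ p.2.1.2.2.2.2 = 0))
    (cond (decide (p.2.1.1 = 0))
      (cond (decide (p.2.1.2.2.1 = 0))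
        (amp p.1 * iteratedDeriv (p.2.1.2.1 + 1) lam (ratOf p.2.2.1.1)) 0)
      (cond (decide (p.2.1.1 = 1))
        ((iteratedDeriv (p.2.1.2.1 + 1) lam (Int.fract (ratOf p.2.2.1.1 : ℝ))
            - iteratedDeriv (p.2.1.2.1 + 1) lam (ratOf p.2.2.1.1)) *
            iteratedDeriv p.2.1.2.2.1 lam (Int.fract (ratOf p.2.2.1.2.1 : ℝ))
          - ν * ((iteratedDeriv p.2.1.2.1 lam (Int.fract (ratOf p.2.2.1.1 : ℝ))
            - iteratedDeriv p.2.1.2.1 lam (ratOf p.2.2.1.1)) *
            iteratedDeriv (p.2.1.2.2.1 + 2) lam (Int.fract (ratOf p.2.2.1.2.1 : ℝ)))) 0)) 0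

variable {α : Type} [Primcodable α]

theorem CompReal.cond {F G : α → ℝ} {c : α → Bool} (hc : Computable c) (hF : CompReal F)
    (hG : CompReal G) : CompReal (fun a => cond (c a) (F a) (G a)) := by
  obtain ⟨g, hg, hb⟩ := hF
  obtain ⟨g', hg', hb'⟩ := hG
  refine ⟨fun p => _root_.cond (c p.1) (g p) (g' p),
    Computable.cond (hc.comp Computable.fst) hg hg', ?_⟩
  intro a n
  cases h : c a with
  | true => simpa [h] using hb a n
  | false => simpa [h] using hb' a n

theorem CompReal.zero : CompReal (fun _ : α => (0 : ℝ)) :=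
  ⟨fun _ => (0, 0, 0), Computable.const _, fun a n => by simp [ratOf]; positivity⟩

theorem compReal_amp : CompReal amp :=
  ⟨ampApprox, primrec_ampApprox.to_comp, fun a n => ampApprox_error a n⟩

theorem compReal_const {ν : ℝ} (h : IsComputableReal ν) :
    CompReal (fun _ : α => ν) := by
  obtain ⟨a, ha, hb⟩ := h
  exact ⟨fun p => a p.2, ha.comp Computable.snd, fun _ n => hb n⟩

theorem compReal_valueFn {ν : ℝ} (h : IsComputableReal ν) : CompReal (valueFn ν) := by
  have hi : Primrec fun p : (Machine × List ℕ) × Query => p.2.1.1 :=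
    Primrec.fst.comp (Primrec.fst.comp Primrec.snd)
  have hk : Primrec fun p : (Machine × List ℕ) × Query => p.2.1.2.1 :=
    Primrec.fst.comp (Primrec.snd.comp (Primrec.fst.comp Primrec.snd))
  have ha : Primrec fun p : (Machine × List ℕ) × Query => p.2.1.2.2 :=
    Primrec.snd.comp (Primrec.snd.comp (Primrec.fst.comp Primrec.snd))
  have ha0 : Primrec fun p : (Machine × List ℕ) × Query => p.2.1.2.2.1 := Primrec.fst.comp ha
  have ha1 : Primrec fun p : (Machine × List ℕ) × Query => p.2.1.2.2.2.1 :=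
    Primrec.fst.comp (Primrec.snd.comp ha)
  have ha2 : Primrec fun p : (Machine × List ℕ) × Query => p.2.1.2.2.2.2 :=
    Primrec.snd.comp (Primrec.snd.comp ha)
  have ht : Primrec fun p : (Machine × List ℕ) × Query => p.2.2.1.1 :=
    Primrec.fst.comp (Primrec.fst.comp (Primrec.snd.comp Primrec.snd))
  have hx : Primrec fun p : (Machine × List ℕ) × Query => p.2.2.1.2.1 :=
    Primrec.fst.comp (Primrec.snd.comp (Primrec.fst.comp (Primrec.snd.comp Primrec.snd)))
  have hk1 : Primrec fun p : (Machine × List ℕ) × Query => p.2.1.2.1 + 1 := Primrec.succ.comp hk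
  have ha02 : Primrec fun p : (Machine × List ℕ) × Query => p.2.1.2.2.1 + 2 :=
    Primrec.succ.comp (Primrec.succ.comp ha0)
  have c1 : Computable fun p : (Machine × List ℕ) × Query =>
      decide (p.2.1.2.2.2.1 = 0 ∧ p.2.1.2.2.2.2 = 0) :=
    ((Primrec.eq.comp ha1 (Primrec.const 0)).and
      (Primrec.eq.comp ha2 (Primrec.const 0))).decide.to_comp
  have c2 : Computable fun p : (Machine × List ℕ) × Query => decide (p.2.1.1 = 0) :=
    (Primrec.eq.comp hi (Primrec.const 0)).decide.to_comp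
  have c3 : Computable fun p : (Machine × List ℕ) × Query => decide (p.2.1.2.2.1 = 0) :=
    (Primrec.eq.comp ha0 (Primrec.const 0)).decide.to_comp
  have c4 : Computable fun p : (Machine × List ℕ) × Query => decide (p.2.1.1 = 1) :=
    (Primrec.eq.comp hi (Primrec.const 1)).decide.to_comp
  have f1 := compReal_lam.comp (hk1.pair ht).to_comp
  have f2 := compReal_lam_fract.comp (hk1.pair ht).to_comp
  have f3 := compReal_lam.comp (hk.pair ht).to_comp
  have f4 := compReal_lam_fract.comp (hk.pair ht).to_comp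
  have f5 := compReal_lam_fract.comp (ha0.pair hx).to_comp
  have f6 := compReal_lam_fract.comp (ha02.pair hx).to_comp
  have fa := compReal_amp.comp (Primrec.fst (α := Machine × List ℕ) (β := Query)).to_comp
  have fn : CompReal (fun _ : (Machine × List ℕ) × Query => ν) := compReal_const h
  exact CompReal.cond c1 (CompReal.cond c2 (CompReal.cond c3 (fa.mul f1) CompReal.zero)
    (CompReal.cond c4 (((f2.sub f1).mul f5).sub (fn.mul ((f4.sub f3).mul f6))) CompReal.zero))
    CompReal.zero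

theorem valueFn_eq (ν : ℝ) (Mw : Machine × List ℕ) (i : Fin 3) (k : ℕ)
    (a t x₀ x₁ x₂ ε : ℕ × ℕ × ℕ) (ht : 0 ≤ ratOf t) :
    mixedDeriv k a (fun s y => fSol ν (amp Mw) s y i) (ratOf t)
      ![(ratOf x₀ : ℝ), ratOf x₁, ratOf x₂] =
    valueFn ν (Mw, ((i, k, a), (t, x₀, x₁, x₂), ε)) := by
  have ht' : (0 : ℝ) ≤ ratOf t := by exact_mod_cast ht
  unfold valueFn
  fin_cases i
  · simp only [Fin.zero_eta]
    rw [mixed_comp0 ν (amp Mw) k a ht']
    by_cases h1 : a.2.1 = 0 ∧ a.2.2 = 0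
    · rw [if_pos h1]
      by_cases h2 : a.1 = 0
      · simp [h1, h2]
      · simp [h1, h2]
    · rw [if_neg h1]
      simp only [h1]
      simp
  · simp only [Fin.mk_one]
    rw [mixed_comp1 ν (amp Mw) k a ht']
    by_cases h1 : a.2.1 = 0 ∧ a.2.2 = 0
    · rw [if_pos h1]
      simp [h1]
    · rw [if_neg h1]
      simp only [h1]
      simp
  · simp only [Fin.reduceFinMk]
    rw [mixed_comp2]
    by_cases h1 : a.2.1 = 0 ∧ a.2.2 = 0
    · simp [h1]
    · simp only [h1]
      simp

theorem ratOf_pos_ge {ε : ℕ × ℕ × ℕ} (h : 0 < ratOf ε) :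
    (1 : ℝ) / ((ε.2.2 : ℕ) + 1) ≤ (ratOf ε : ℝ) := by
  unfold ratOf at h ⊢
  have hd : (0 : ℚ) < (ε.2.2 : ℚ) + 1 := by positivity
  have h1 : (0 : ℚ) < (ε.1 : ℚ) - ε.2.1 := by
    by_contra hc
    push Not at hc
    exact absurd h (not_lt.2 (div_nonpos_of_nonpos_of_nonneg hc hd.le))
  have h2 : ε.2.1 < ε.1 := by
    have : (ε.2.1 : ℚ) < ε.1 := by linarith
    exact_mod_cast this
  have h3 : (1 : ℝ) ≤ (ε.1 : ℝ) - ε.2.1 := by
    have : ((ε.2.1 + 1 : ℕ) : ℝ) ≤ (ε.1 : ℕ) := by exact_mod_cast h2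
    push_cast at this
    linarith
  push_cast
  exact div_le_div_of_nonneg_right h3 (by positivity)

theorem exists_code_of_computable {α σ : Type} [Primcodable α] [Primcodable σ] {F : α → σ}
    (h : Computable F) :
    ∃ c : Nat.Partrec.Code, ∀ a, Encodable.encode (F a) ∈ c.eval (Encodable.encode a) := by
  obtain ⟨c, hc⟩ := Nat.Partrec.Code.exists_code.1 h
  refine ⟨c, fun a => ?_⟩
  rw [hc]
  simp [Encodable.encodek]

/-- The compiler. -/
theorem exists_compiler {ν : ℝ} (h : IsComputableReal ν) :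
    ∃ comp : Machine × List ℕ → Nat.Partrec.Code, Computable comp ∧
      ∀ M w, Computes (comp (M, w)) (fSol ν (amp (M, w))) := by
  obtain ⟨g, hg, hb⟩ := compReal_valueFn h
  have hF : Computable fun p : (Machine × List ℕ) × Query => g (p, p.2.2.2.2.2) := by
    refine hg.comp (Computable.id.pair ?_)
    exact (Primrec.snd.comp (Primrec.snd.comp (Primrec.snd.comp
      (Primrec.snd.comp (Primrec.snd (α := Machine × List ℕ) (β := Query)))))).to_comp
  obtain ⟨c, hc⟩ := exists_code_of_computable hF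
  refine ⟨fun Mw => Nat.Partrec.Code.curry c (Encodable.encode Mw), ?_, ?_⟩
  · exact (Nat.Partrec.Code.primrec₂_curry.comp (Primrec.const c) Primrec.encode).to_comp
  · intro M w i k a t x₀ x₁ x₂ ε ht hε
    refine ⟨g (((M, w), ((i, k, a), (t, x₀, x₁, x₂), ε)), ε.2.2), ?_, ?_⟩
    · rw [Nat.Partrec.Code.eval_curry]
      have e : Nat.pair (Encodable.encode (M, w))
          (Encodable.encode (((i, k, a), (t, x₀, x₁, x₂), ε) : Query)) =
          Encodable.encode (((M, w), ((i, k, a), (t, x₀, x₁, x₂), ε)) :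
            (Machine × List ℕ) × Query) := rfl
      rw [e]
      exact hc _
    · rw [valueFn_eq ν (M, w) i k a t x₀ x₁ x₂ ε ht]
      exact (hb _ _).trans (ratOf_pos_ge hε)

end Vale.Agent.P113
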