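import Mathlib

open Set MeasureTheory
open scoped ContDiff

namespace Vale.Agent.P113

/-- Euclidean three-space, as coordinate triples. -/
abbrev R3 : Type := Fin 3 → ℝ

/-- The flat torus `(ℝ/ℤ)³`. -/
abbrev T3 : Type := Fin 3 → AddCircle (1 : ℝ)

/-- The covering map `ℝ³ → (ℝ/ℤ)³`. -/
def toT3 (x : R3) : T3 := fun i => (x i : AddCircle (1 : ℝ))

/-- `g` is `ℤ³`-periodic, that is, a function on the torus. -/
def Periodic3 {α : Type} (g : R3 → α) : Prop :=
  ∀ (x : R3) (k : Fin 3 → ℤ), g (fun i => x i + k i) = g x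

/-- The partial derivative in the `j`-th space variable. -/
noncomputable def pd (j : Fin 3) (g : R3 → ℝ) (x : R3) : ℝ :=
  deriv (fun s : ℝ => g (Function.update x j s)) (x j)

/-- `(u, p)` is a classical solution, on the time interval `I` (which contains `0`), of the
incompressible Navier-Stokes system on the torus with viscosity `ν`, force `f` and zero initial
velocity; `p` has spatial mean zero. -/
structure IsClassicalSolution (ν : ℝ) (f : ℝ → R3 → R3) (I : Set ℝ)
    (u : ℝ → R3 → R3) (p : ℝ → R3 → ℝ) : Prop where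
  periodic_u : ∀ t ∈ I, Periodic3 (u t)
  periodic_p : ∀ t ∈ I, Periodic3 (p t)
  contDiff_u : ∀ t ∈ I, ContDiff ℝ 2 (u t)
  contDiff_p : ∀ t ∈ I, ContDiff ℝ 1 (p t)
  differentiable_time : ∀ t ∈ I, ∀ x, DifferentiableWithinAt ℝ (fun s => u s x) I t
  continuous_u : ContinuousOn (fun q : ℝ × R3 => u q.1 q.2) (I ×ˢ univ)
  continuous_time : ContinuousOn
    (fun q : ℝ × R3 => derivWithin (fun s => u s q.2) I q.1) (I ×ˢ univ)
  continuous_du : ∀ i j : Fin 3, ContinuousOn
    (fun q : ℝ × R3 => pd j (fun y => u q.1 y i) q.2) (I ×ˢ univ)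
  continuous_ddu : ∀ i j k : Fin 3, ContinuousOn
    (fun q : ℝ × R3 => pd k (pd j (fun y => u q.1 y i)) q.2) (I ×ˢ univ)
  continuous_p : ContinuousOn (fun q : ℝ × R3 => p q.1 q.2) (I ×ˢ univ)
  continuous_dp : ∀ j : Fin 3, ContinuousOn
    (fun q : ℝ × R3 => pd j (p q.1) q.2) (I ×ˢ univ)
  momentum : ∀ t ∈ I, ∀ (x : R3) (i : Fin 3),
    derivWithin (fun s => u s x) I t i + ∑ j, u t x j * pd j (fun y => u t y i) x
      = - pd i (p t) x + ν * ∑ j, pd j (pd j (fun y => u t y i)) x + f t x i
  incompressible : ∀ t ∈ I, ∀ x : R3, ∑ j, pd j (fun y => u t y j) x = 0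
  initial : ∀ x, u 0 x = 0
  mean_zero : ∀ t ∈ I, ∫ x in Icc (0 : R3) 1, p t x = 0

/-- A smooth force on `[0,∞) × T³`. -/
def IsSmoothForce (f : ℝ → R3 → R3) : Prop :=
  (∀ t ≥ 0, Periodic3 (f t)) ∧
    ContDiffOn ℝ ∞ (fun q : ℝ × R3 => f q.1 q.2) (Ici (0 : ℝ) ×ˢ univ)

/-- A global smooth solution: a classical solution on `[0,∞)` with `u` and `p` smooth on
`[0,∞) × T³`. -/
def IsGlobalSmoothSolution (ν : ℝ) (f : ℝ → R3 → R3) (u : ℝ → R3 → R3) (p : ℝ → R3 → ℝ) : Prop :=
  IsClassicalSolution ν f (Ici 0) u p ∧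
    ContDiffOn ℝ ∞ (fun q : ℝ × R3 => u q.1 q.2) (Ici (0 : ℝ) ×ˢ univ) ∧
    ContDiffOn ℝ ∞ (fun q : ℝ × R3 => p q.1 q.2) (Ici (0 : ℝ) ×ˢ univ)

/-- `X` is (a lift to `ℝ³` of) the trajectory of the point `a` of the torus in the velocity
field `u`. -/
def IsTrajectory (u : ℝ → R3 → R3) (a : T3) (X : ℝ → R3) : Prop :=
  toT3 (X 0) = a ∧ ∀ t ≥ 0, HasDerivWithinAt X (u t (X t)) (Ici 0) t

/-- The rational number `(a - b)/(c + 1)` coded by the triple `(a, b, c)` of natural numbers. -/
def ratOf (q : ℕ × ℕ × ℕ) : ℚ := ((q.1 : ℚ) - q.2.1) / (q.2.2 + 1)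

/-- Computable real numbers. -/
def IsComputableReal (r : ℝ) : Prop :=
  ∃ a : ℕ → ℕ × ℕ × ℕ, Computable a ∧ ∀ n : ℕ, |r - ratOf (a n)| ≤ 1 / (n + 1)

/-- The mixed derivative of `g : [0,∞) × T³ → ℝ` of order `k` in time and of orders
`a.1, a.2.1, a.2.2` in the three space variables (one-sided in time at `t = 0`). -/
noncomputable def mixedDeriv (k : ℕ) (a : ℕ × ℕ × ℕ) (g : ℝ → R3 → ℝ) (t : ℝ) (x : R3) : ℝ :=
  iteratedDerivWithin k
    (fun s => ((pd 0)^[a.1] ((pd 1)^[a.2.1] ((pd 2)^[a.2.2] (g s)))) x) (Ici 0) t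

/-- The program `c` returns each mixed derivative of each component of `f` at all rational points
of `[0,∞) × ℝ³` to any prescribed rational accuracy. -/
def Computes (c : Nat.Partrec.Code) (f : ℝ → R3 → R3) : Prop :=
  ∀ (i : Fin 3) (k : ℕ) (a t x₀ x₁ x₂ ε : ℕ × ℕ × ℕ), 0 ≤ ratOf t → 0 < ratOf ε →
    ∃ r : ℕ × ℕ × ℕ,
      Encodable.encode r ∈ c.eval (Encodable.encode ((i, k, a), (t, x₀, x₁, x₂), ε)) ∧
      |mixedDeriv k a (fun s y => f s y i) (ratOf t) ![(ratOf x₀ : ℝ), ratOf x₁, ratOf x₂]
        - ratOf r| ≤ ratOf ε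

/-- A deterministic one-tape Turing machine: the finite list of its halting states, and its program,
a finite list of instructions `((q, s), (q', s', d))`: in state `q` reading the symbol `s`, write
`s'`, enter the state `q'`, and move left (`d = some false`), right (`d = some true`) or not at
all (`d = none`). States and symbols are natural numbers (only finitely many occur), the initial
state is `0` and the blank is `0`. The first matching instruction applies; without one, nothing
changes. -/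
abbrev Machine : Type := List ℕ × List ((ℕ × ℕ) × (ℕ × ℕ × Option Bool))

/-- A configuration: the state, the position of the head and the content of the two-sided tape. -/
structure Cfg where
  state : ℕ
  head : ℤ
  tape : ℤ → ℕ

/-- The displacement of the head. -/
def shift : Option Bool → ℤ
  | none => 0
  | some false => -1
  | some true => 1

/-- One step of the machine. -/
def step (M : Machine) (c : Cfg) : Cfg :=
  if c.state ∈ M.1 then c else
    match M.2.find? (fun e => decide (e.1 = (c.state, c.tape c.head))) with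
    | none => c
    | some e => ⟨e.2.1, c.head + shift e.2.2.2, Function.update c.tape c.head e.2.2.1⟩

/-- The initial configuration on the input `w`: the word is written on the cells `0, 1, …` of an
otherwise blank tape and the head is at its first cell. -/
def initCfg (w : List ℕ) : Cfg := ⟨0, 0, fun z => if 0 ≤ z then w.getD z.toNat 0 else 0⟩

/-- `M` halts on `w`: a halting state is reached after finitely many steps, possibly none. -/
def HaltsOn (M : Machine) (w : List ℕ) : Prop :=
  ∃ n : ℕ, ((step M)^[n] (initCfg w)).state ∈ M.1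

/-- The algorithm `comp` is a force compiler, with forces `f M w`: it halts on every pair `(M, w)`
with a program for the smooth force `f M w`, and for some time `T₀` independent of `(M, w)` the
restriction of `f M w` to `t ≥ T₀` is periodic in time and depends on `M` only. -/
def IsForceCompiler (comp : Machine × List ℕ → Nat.Partrec.Code)
    (f : Machine → List ℕ → ℝ → R3 → R3) : Prop :=
  Computable comp ∧
  (∀ M w, IsSmoothForce (f M w) ∧ Computes (comp (M, w)) (f M w)) ∧
  ∃ T₀ : ℝ, 0 ≤ T₀ ∧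
    (∀ M, ∃ τ > 0, ∀ w, ∀ t ≥ T₀, ∀ x, f M w (t + τ) x = f M w t x) ∧
    (∀ M w w', ∀ t ≥ T₀, ∀ x, f M w t x = f M w' t x)

end Vale.Agent.P113
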