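import Vale.Agent.P113.Defs

namespace Vale.Agent.P113

/-- List configurations: state, left part (nearest cell first), scanned symbol, right part. -/
abbrev LCfg : Type := ℕ × List ℕ × ℕ × List ℕ

/-- Applying an instruction. -/
def applyL (r : ℕ × ℕ × Option Bool) (L R : List ℕ) : LCfg :=
  match r.2.2 with
  | none => (r.1, L, r.2.1, R)
  | some b => cond b (r.1, r.2.1 :: L, R.headI, R.tail) (r.1, L.tail, L.headI, r.2.1 :: R)

/-- Halting test for a state. -/
def isHalt (H : List ℕ) (q : ℕ) : Bool := decide (H.idxOf q < H.length)

theorem isHalt_iff (H : List ℕ) (q : ℕ) : isHalt H q = true ↔ q ∈ H := by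
  simp [isHalt, List.idxOf_lt_length_iff]

/-- Instruction lookup. -/
def look (P : List ((ℕ × ℕ) × (ℕ × ℕ × Option Bool))) (k : ℕ × ℕ) :
    Option ((ℕ × ℕ) × (ℕ × ℕ × Option Bool)) :=
  P[P.findIdx (fun e => decide (e.1 = k))]?

theorem look_eq (P : List ((ℕ × ℕ) × (ℕ × ℕ × Option Bool))) (k : ℕ × ℕ) :
    look P k = P.find? (fun e => decide (e.1 = k)) := by
  rw [look, List.find?_eq_getElem?_findIdx]

/-- One step on list configurations. -/
def stepL (M : Machine) (c : LCfg) : LCfg :=
  cond (isHalt M.1 c.1) c
    (Option.casesOn (look M.2 (c.1, c.2.2.1)) c (fun e => applyL e.2 c.2.1 c.2.2.2))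

/-- Initial list configuration. -/
def initL (w : List ℕ) : LCfg := (0, [], w.headI, w.tail)

theorem primrec_isHalt : Primrec₂ isHalt := by
  have h : PrimrecPred fun p : List ℕ × ℕ => p.1.idxOf p.2 < p.1.length :=
    Primrec.nat_lt.comp (Primrec.list_idxOf.comp Primrec.snd Primrec.fst)
      (Primrec.list_length.comp Primrec.fst)
  exact h.decide

theorem primrec_look : Primrec₂ look := by
  have hp : Primrec₂ fun (p : List ((ℕ × ℕ) × (ℕ × ℕ × Option Bool)) × (ℕ × ℕ))
      (e : (ℕ × ℕ) × (ℕ × ℕ × Option Bool)) => decide (e.1 = p.2) :=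
    ((Primrec.eq.comp (Primrec.fst.comp Primrec.snd)
      (Primrec.snd.comp Primrec.fst)).decide).to₂
  exact Primrec.list_getElem?.comp Primrec.fst (Primrec.list_findIdx Primrec.fst hp)

theorem primrec_applyL : Primrec fun p : (ℕ × ℕ × Option Bool) × (List ℕ × List ℕ) =>
    applyL p.1 p.2.1 p.2.2 := by
  have h0 : Primrec fun p : (ℕ × ℕ × Option Bool) × (List ℕ × List ℕ) => p.1.2.2 :=
    Primrec.snd.comp (Primrec.snd.comp Primrec.fst)
  have hq : Primrec fun p : (ℕ × ℕ × Option Bool) × (List ℕ × List ℕ) => p.1.1 :=
    Primrec.fst.comp Primrec.fst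
  have hs : Primrec fun p : (ℕ × ℕ × Option Bool) × (List ℕ × List ℕ) => p.1.2.1 :=
    Primrec.fst.comp (Primrec.snd.comp Primrec.fst)
  have hL : Primrec fun p : (ℕ × ℕ × Option Bool) × (List ℕ × List ℕ) => p.2.1 :=
    Primrec.fst.comp Primrec.snd
  have hR : Primrec fun p : (ℕ × ℕ × Option Bool) × (List ℕ × List ℕ) => p.2.2 :=
    Primrec.snd.comp Primrec.snd
  have h1 := Primrec.option_casesOn (o := fun p : (ℕ × ℕ × Option Bool) × (List ℕ × List ℕ) =>
      p.1.2.2) (f := fun p => ((p.1.1, p.2.1, p.1.2.1, p.2.2) : LCfg))
      (g := fun p b => cond b ((p.1.1, p.1.2.1 :: p.2.1, p.2.2.headI, p.2.2.tail) : LCfg)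
        (p.1.1, p.2.1.tail, p.2.1.headI, p.1.2.1 :: p.2.2)) h0
      (hq.pair (hL.pair (hs.pair hR)))
      (Primrec.cond Primrec.snd
        ((hq.pair (((Primrec.list_cons.comp hs hL)).pair
          ((Primrec.list_headI.comp hR).pair (Primrec.list_tail.comp hR)))).comp Primrec.fst)
        ((hq.pair ((Primrec.list_tail.comp hL).pair
          ((Primrec.list_headI.comp hL).pair (Primrec.list_cons.comp hs hR)))).comp Primrec.fst))
  refine h1.of_eq ?_
  rintro ⟨⟨q, s, d⟩, L, R⟩
  cases d with
  | none => rfl
  | some b => rfl

theorem primrec_stepL : Primrec₂ stepL := by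
  have hc : Primrec fun p : Machine × LCfg => isHalt p.1.1 p.2.1 :=
    primrec_isHalt.comp (Primrec.fst.comp Primrec.fst) (Primrec.fst.comp Primrec.snd)
  have hk : Primrec fun p : Machine × LCfg => (p.2.1, p.2.2.2.1) :=
    (Primrec.fst.comp Primrec.snd).pair
      (Primrec.fst.comp (Primrec.snd.comp (Primrec.snd.comp Primrec.snd)))
  have hl : Primrec fun p : Machine × LCfg => look p.1.2 (p.2.1, p.2.2.2.1) :=
    primrec_look.comp (Primrec.snd.comp Primrec.fst) hk
  have hL : Primrec fun p : Machine × LCfg => p.2.2.1 :=
    Primrec.fst.comp (Primrec.snd.comp Primrec.snd)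
  have hR : Primrec fun p : Machine × LCfg => p.2.2.2.2 :=
    Primrec.snd.comp (Primrec.snd.comp (Primrec.snd.comp Primrec.snd))
  have hap : Primrec₂ fun (p : Machine × LCfg) (e : (ℕ × ℕ) × (ℕ × ℕ × Option Bool)) =>
      applyL e.2 p.2.2.1 p.2.2.2.2 :=
    (primrec_applyL.comp ((Primrec.snd.comp Primrec.snd).pair
      ((hL.comp Primrec.fst).pair (hR.comp Primrec.fst)))).to₂
  have h := Primrec.cond hc Primrec.snd (Primrec.option_casesOn hl Primrec.snd hap)
  exact h

/-- The halting-by-step-`n` test. -/
def haltedBy (a : (Machine × List ℕ) × ℕ) : Bool :=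
  isHalt a.1.1.1 ((stepL a.1.1)^[a.2] (initL a.1.2)).1

theorem primrec_initL : Primrec initL :=
  (Primrec.const 0).pair ((Primrec.const []).pair (Primrec.list_headI.pair Primrec.list_tail))

theorem primrec_haltedBy : Primrec haltedBy := by
  have hM : Primrec fun a : (Machine × List ℕ) × ℕ => a.1.1 := Primrec.fst.comp Primrec.fst
  have hw : Primrec fun a : (Machine × List ℕ) × ℕ => a.1.2 := Primrec.snd.comp Primrec.fst
  have hit : Primrec fun a : (Machine × List ℕ) × ℕ => (stepL a.1.1)^[a.2] (initL a.1.2) :=
    Primrec.nat_iterate (f := fun a : (Machine × List ℕ) × ℕ => a.2)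
      (g := fun a => initL a.1.2) (h := fun a c => stepL a.1.1 c) Primrec.snd
      (primrec_initL.comp hw)
      (primrec_stepL.comp (hM.comp Primrec.fst) Primrec.snd)
  exact primrec_isHalt.comp (Primrec.fst.comp hM) (Primrec.fst.comp hit)

/-- The correspondence between configurations and list configurations. -/
def Rel (c : Cfg) (d : LCfg) : Prop :=
  c.state = d.1 ∧ c.tape c.head = d.2.2.1 ∧
    (∀ i : ℕ, c.tape (c.head + 1 + i) = d.2.2.2.getD i 0) ∧
    ∀ i : ℕ, c.tape (c.head - 1 - i) = d.2.1.getD i 0

theorem headI_eq (l : List ℕ) : l.headI = l.getD 0 0 := by cases l <;> rfl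

theorem tail_getD (l : List ℕ) (i : ℕ) : l.tail.getD i 0 = l.getD (i + 1) 0 := by
  cases l <;> simp

theorem rel_step (M : Machine) {c : Cfg} {d : LCfg} (h : Rel c d) :
    Rel (step M c) (stepL M d) := by
  obtain ⟨hq, hs, hR, hL⟩ := h
  unfold step stepL
  by_cases hH : c.state ∈ M.1
  · rw [if_pos hH, (isHalt_iff _ _).2 (hq ▸ hH)]
    exact ⟨hq, hs, hR, hL⟩
  · have hH' : isHalt M.1 d.1 = false := by
      rw [Bool.eq_false_iff, Ne, isHalt_iff, ← hq]
      exact hH
    rw [if_neg hH, hH', cond_false, look_eq, hq, hs]
    cases hf : List.find? (fun e => decide (e.1 = (d.1, d.2.2.1))) M.2 with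
    | none => exact ⟨hq, hs, hR, hL⟩
    | some e =>
      obtain ⟨k, q', s', dir⟩ := e
      simp only
      unfold applyL
      simp only
      rcases dir with _ | b
      · refine ⟨rfl, ?_, ?_, ?_⟩
        · simp [shift]
        · intro i
          simp only [shift, add_zero]
          rw [Function.update_of_ne (by omega)]
          exact hR i
        · intro i
          simp only [shift, add_zero]
          rw [Function.update_of_ne (by omega)]
          exact hL i
      · cases b with
        | true =>
          refine ⟨rfl, ?_, ?_, ?_⟩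
          · simp only [shift, cond_true, headI_eq]
            rw [Function.update_of_ne (by omega)]
            have := hR 0
            simpa using this
          · intro i
            simp only [shift, cond_true]
            rw [Function.update_of_ne (by omega), tail_getD, ← hR (i + 1)]
            congr 1
            push_cast
            ring
          · intro i
            simp only [shift, cond_true]
            cases i with
            | zero => simp
            | succ i =>
              rw [Function.update_of_ne (by push_cast; omega), List.getD_cons_succ, ← hL i]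
              congr 1
              push_cast
              ring
        | false =>
          refine ⟨rfl, ?_, ?_, ?_⟩
          · simp only [shift, cond_false, headI_eq]
            rw [Function.update_of_ne (by omega)]
            have := hL 0
            simpa [sub_eq_add_neg] using this
          · intro i
            simp only [shift, cond_false]
            cases i with
            | zero => simp
            | succ i =>
              rw [Function.update_of_ne (by push_cast; omega), List.getD_cons_succ, ← hR i]
              congr 1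
              push_cast
              ring
          · intro i
            simp only [shift, cond_false]
            rw [Function.update_of_ne (by omega), tail_getD, ← hL (i + 1)]
            congr 1
            push_cast
            ring

theorem rel_init (w : List ℕ) : Rel (initCfg w) (initL w) := by
  unfold initCfg initL
  refine ⟨rfl, ?_, ?_, ?_⟩
  · simp [headI_eq]
  · intro i
    have e : ((0 : ℤ) + 1 + i).toNat = i + 1 := by omega
    simp only
    rw [if_pos (by omega), tail_getD, e]
  · intro i
    simp only
    rw [if_neg (by omega)]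
    simp

theorem rel_iterate (M : Machine) (w : List ℕ) (n : ℕ) :
    Rel ((step M)^[n] (initCfg w)) ((stepL M)^[n] (initL w)) := by
  induction n with
  | zero => exact rel_init w
  | succ n ih =>
    rw [Function.iterate_succ_apply', Function.iterate_succ_apply']
    exact rel_step M ih

theorem haltedBy_iff (M : Machine) (w : List ℕ) (n : ℕ) :
    haltedBy ((M, w), n) = true ↔ ((step M)^[n] (initCfg w)).state ∈ M.1 := by
  unfold haltedBy
  rw [isHalt_iff, (rel_iterate M w n).1]

theorem haltsOn_iff (M : Machine) (w : List ℕ) :
    HaltsOn M w ↔ ∃ n, haltedBy ((M, w), n) = true := by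
  unfold HaltsOn
  simp only [haltedBy_iff]

end Vale.Agent.P113
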