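import Vale.Agent.P113.Defs

open Set MeasureTheory Filter Topology
open scoped ContDiff

namespace Vale.Agent.P113

/-! ### Partial derivatives along coordinate lines -/

theorem hasDerivAt_line {g : R3 → ℝ} {x : R3} (hg : DifferentiableAt ℝ g x) (j : Fin 3) :
    HasDerivAt (fun s : ℝ => g (Function.update x j s)) (fderiv ℝ g x (Pi.single j 1)) (x j) := by
  have h2 : HasFDerivAt g (fderiv ℝ g x) (Function.update x j (x j)) := by
    rw [Function.update_eq_self]; exact hg.hasFDerivAt
  exact h2.comp_hasDerivAt (x j) (hasDerivAt_update x j (x j))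

theorem pd_eq_fderiv {g : R3 → ℝ} {x : R3} (hg : DifferentiableAt ℝ g x) (j : Fin 3) :
    pd j g x = fderiv ℝ g x (Pi.single j 1) :=
  (hasDerivAt_line hg j).deriv

theorem hasPd {g : R3 → ℝ} {x : R3} (hg : DifferentiableAt ℝ g x) (j : Fin 3) :
    HasDerivAt (fun s : ℝ => g (Function.update x j s)) (pd j g x) (x j) := by
  rw [pd_eq_fderiv hg]; exact hasDerivAt_line hg j

theorem pd_contDiff {g : R3 → ℝ} {n : ℕ} (hg : ContDiff ℝ (n + 1 : ℕ) g) (j : Fin 3) :
    ContDiff ℝ n (pd j g) := by
  have e : pd j g = fun x => fderiv ℝ g x (Pi.single j 1) := by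
    funext x
    exact pd_eq_fderiv (hg.differentiable (by simp) x) j
  rw [e]
  have h1 : ContDiff ℝ n (fderiv ℝ g) := hg.fderiv_right (m := n) (by push_cast; rfl)
  exact h1.clm_apply contDiff_const

theorem pd_sub {g h : R3 → ℝ} (hg : Differentiable ℝ g) (hh : Differentiable ℝ h) (j : Fin 3)
    (x : R3) : pd j (fun y => g y - h y) x = pd j g x - pd j h x :=
  ((hasPd (hg x) j).sub (hasPd (hh x) j)).deriv

theorem pd_periodic {g : R3 → ℝ} (hg : Periodic3 g) (j : Fin 3) : Periodic3 (pd j g) := by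
  intro x k
  unfold pd
  have e : (fun s : ℝ => g (Function.update (fun i => x i + k i) j s)) =
      fun s => (fun r => g (Function.update x j r)) (s - k j) := by
    funext s
    have : Function.update (fun i => x i + k i) j s =
        fun i => Function.update x j (s - k j) i + k i := by
      funext i
      by_cases h : i = j
      · subst h; simp
      · simp [Function.update_of_ne h]
    rw [this, hg]
  rw [e]
  have h := deriv_comp_sub_const (f := fun r => g (Function.update x j r)) (x := x j + k j)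
    (a := (k j : ℝ))
  simpa using h

/-! ### The integral of a divergence -/

theorem integral_div_eq_zero {G : R3 → R3} (hG : ContDiff ℝ 1 G) (hp : Periodic3 G) :
    ∫ x in Icc (0 : R3) 1, ∑ i, pd i (fun y => G y i) x = 0 := by
  have hd : ∀ x, DifferentiableAt ℝ G x := fun x => hG.differentiable one_ne_zero x
  have e1 : ∀ x i, pd i (fun y => G y i) x = fderiv ℝ G x (Pi.single i 1) i := by
    intro x i
    have h1 : HasFDerivAt (fun y => G y i) ((ContinuousLinearMap.proj i).comp (fderiv ℝ G x)) x :=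
      ((ContinuousLinearMap.proj (R := ℝ) (φ := fun _ : Fin 3 => ℝ) i).hasFDerivAt).comp x
        (hd x).hasFDerivAt
    rw [pd_eq_fderiv h1.differentiableAt, h1.fderiv]
    rfl
  have hcont : Continuous (fun x => ∑ i, fderiv ℝ G x (Pi.single i 1) i) := by
    refine continuous_finsetSum _ fun i _ => ?_
    have := (hG.continuous_fderiv one_ne_zero).clm_apply
      (continuous_const (y := (Pi.single i 1 : R3)))
    exact (continuous_apply i).comp this
  have h := integral_divergence_of_hasFDerivAt_off_countable (0 : R3) 1 zero_le_one G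
    (fderiv ℝ G) ∅ countable_empty hG.continuous.continuousOn (fun x _ => (hd x).hasFDerivAt)
    (hcont.continuousOn.integrableOn_compact isCompact_Icc)
  simp only [e1]
  rw [h]
  refine Finset.sum_eq_zero fun i _ => ?_
  rw [sub_eq_zero]
  congr 1
  funext x
  have := hp (i.insertNth ((0 : R3) i) x) (Pi.single i 1)
  rw [← this]
  congr 1
  funext j
  refine Fin.succAboveCases i ?_ (fun l => ?_) j
  · simp
  · simp

/-! ### The energy identity -/

/-- The field whose divergence appears in the energy identity. -/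
noncomputable def gField (ν : ℝ) (v w : R3 → R3) (r : R3 → ℝ) (x : R3) : R3 := fun i =>
  -(1 / 2) * (v x i * (w x 0 * w x 0 + w x 1 * w x 1 + w x 2 * w x 2)) - w x i * r x
    + ν * (w x 0 * pd i (fun y => w y 0) x + w x 1 * pd i (fun y => w y 1) x
      + w x 2 * pd i (fun y => w y 2) x)

theorem gField_contDiff (ν : ℝ) {v w : R3 → R3} {r : R3 → ℝ} (hv : ContDiff ℝ 2 v)
    (hw : ContDiff ℝ 2 w) (hr : ContDiff ℝ 1 r) : ContDiff ℝ 1 (gField ν v w r) := by
  rw [contDiff_pi]
  intro i
  have v1 : ContDiff ℝ 1 (fun y => v y i) := (contDiff_pi.1 hv i).of_le one_le_two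
  have w2 : ∀ j, ContDiff ℝ 2 (fun y => w y j) := fun j => contDiff_pi.1 hw j
  have w1 : ∀ j, ContDiff ℝ 1 (fun y => w y j) := fun j => (w2 j).of_le one_le_two
  have pw : ∀ j, ContDiff ℝ 1 (pd i (fun y => w y j)) := fun j =>
    pd_contDiff (n := 1) (w2 j) i
  unfold gField
  have s1 : ContDiff ℝ 1 (fun x => w x 0 * w x 0 + w x 1 * w x 1 + w x 2 * w x 2) :=
    (((w1 0).mul (w1 0)).add ((w1 1).mul (w1 1))).add ((w1 2).mul (w1 2))
  have s2 : ContDiff ℝ 1 (fun x => w x 0 * pd i (fun y => w y 0) x + w x 1 * pd i (fun y => w y 1) x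
      + w x 2 * pd i (fun y => w y 2) x) :=
    (((w1 0).mul (pw 0)).add ((w1 1).mul (pw 1))).add ((w1 2).mul (pw 2))
  exact ((contDiff_const.mul (v1.mul s1)).sub ((w1 i).mul hr)).add (contDiff_const.mul s2)

theorem gField_periodic (ν : ℝ) {v w : R3 → R3} {r : R3 → ℝ} (hv : Periodic3 v)
    (hw : Periodic3 w) (hr : Periodic3 r) : Periodic3 (gField ν v w r) := by
  intro x k
  have pw : ∀ i j, pd i (fun y => w y j) (fun i => x i + k i) = pd i (fun y => w y j) x :=
    fun i j => pd_periodic (fun x k => by rw [hw]) i x k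
  unfold gField
  simp only [hv x k, hw x k, hr x k, pw]

theorem pd_gField (ν : ℝ) {v w : R3 → R3} {r : R3 → ℝ} (hv : ContDiff ℝ 2 v)
    (hw : ContDiff ℝ 2 w) (hr : ContDiff ℝ 1 r) (x : R3) (i : Fin 3) :
    pd i (fun y => gField ν v w r y i) x =
      -(1 / 2) * (pd i (fun y => v y i) x * (w x 0 * w x 0 + w x 1 * w x 1 + w x 2 * w x 2)
        + v x i * (2 * w x 0 * pd i (fun y => w y 0) x + 2 * w x 1 * pd i (fun y => w y 1) x
          + 2 * w x 2 * pd i (fun y => w y 2) x))
      - (pd i (fun y => w y i) x * r x + w x i * pd i r x)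
      + ν * (pd i (fun y => w y 0) x * pd i (fun y => w y 0) x
          + w x 0 * pd i (pd i (fun y => w y 0)) x
          + (pd i (fun y => w y 1) x * pd i (fun y => w y 1) x
          + w x 1 * pd i (pd i (fun y => w y 1)) x)
          + (pd i (fun y => w y 2) x * pd i (fun y => w y 2) x
          + w x 2 * pd i (pd i (fun y => w y 2)) x)) := by
  have v1 : ContDiff ℝ 1 (fun y => v y i) := (contDiff_pi.1 hv i).of_le one_le_two
  have w2 : ∀ j, ContDiff ℝ 2 (fun y => w y j) := fun j => contDiff_pi.1 hw j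
  have w1 : ∀ j, ContDiff ℝ 1 (fun y => w y j) := fun j => (w2 j).of_le one_le_two
  have pw : ∀ j, ContDiff ℝ 1 (pd i (fun y => w y j)) := fun j =>
    pd_contDiff (n := 1) (w2 j) i
  have hv' := hasPd (v1.differentiable one_ne_zero x) i
  have hw' := fun j => hasPd ((w1 j).differentiable one_ne_zero x) i
  have hr' := hasPd (hr.differentiable one_ne_zero x) i
  have hpw := fun j => hasPd ((pw j).differentiable one_ne_zero x) i
  have s1 := (((hw' 0).mul (hw' 0)).add ((hw' 1).mul (hw' 1))).add ((hw' 2).mul (hw' 2))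
  have s2 := (((hw' 0).mul (hpw 0)).add ((hw' 1).mul (hpw 1))).add ((hw' 2).mul (hpw 2))
  have h := (((hv'.mul s1).const_mul (-(1 / 2) : ℝ)).sub ((hw' i).mul hr')).add
    (s2.const_mul ν)
  refine h.deriv.trans ?_
  simp only [Pi.add_apply, Pi.mul_apply, Function.update_eq_self]
  ring

/-! ### Two classical solutions -/

section Two

variable {ν T : ℝ} {f u v : ℝ → R3 → R3} {p q : ℝ → R3 → ℝ}

/-- The square of the length of the difference. -/
def sqDiff (u v : ℝ → R3 → R3) (t : ℝ) (x : R3) : ℝ :=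
  (v t x 0 - u t x 0) * (v t x 0 - u t x 0) + (v t x 1 - u t x 1) * (v t x 1 - u t x 1)
    + (v t x 2 - u t x 2) * (v t x 2 - u t x 2)

/-- Half of the rate of change of `sqDiff`. -/
noncomputable def rateDiff (T : ℝ) (u v : ℝ → R3 → R3) (t : ℝ) (x : R3) : ℝ :=
  (v t x 0 - u t x 0) * (derivWithin (fun s => v s x) (Icc 0 T) t 0
      - derivWithin (fun s => u s x) (Icc 0 T) t 0)
    + (v t x 1 - u t x 1) * (derivWithin (fun s => v s x) (Icc 0 T) t 1
      - derivWithin (fun s => u s x) (Icc 0 T) t 1)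
    + (v t x 2 - u t x 2) * (derivWithin (fun s => v s x) (Icc 0 T) t 2
      - derivWithin (fun s => u s x) (Icc 0 T) t 2)

theorem rate_identity (hu : IsClassicalSolution ν f (Icc 0 T) u p)
    (hv : IsClassicalSolution ν f (Icc 0 T) v q) {t : ℝ} (ht : t ∈ Icc 0 T) (x : R3) :
    rateDiff T u v t x = ∑ i, pd i (fun y => gField ν (v t) (fun z => v t z - u t z)
        (fun z => q t z - p t z) y i) x
      - (∑ i, ∑ j, (v t x i - u t x i) * (v t x j - u t x j) * pd j (fun y => u t y i) x)
      - ν * ∑ i, ∑ j, pd i (fun y => v t y j - u t y j) x ^ 2 := by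
  have hu2 := hu.contDiff_u t ht
  have hv2 := hv.contDiff_u t ht
  have hp1 := hu.contDiff_p t ht
  have hq1 := hv.contDiff_p t ht
  have hw2 : ContDiff ℝ 2 (fun z => v t z - u t z) := hv2.sub hu2
  have hr1 : ContDiff ℝ 1 (fun z => q t z - p t z) := hq1.sub hp1
  have du : ∀ i, Differentiable ℝ (fun y => u t y i) := fun i =>
    (contDiff_pi.1 hu2 i).differentiable two_ne_zero
  have dv : ∀ i, Differentiable ℝ (fun y => v t y i) := fun i =>
    (contDiff_pi.1 hv2 i).differentiable two_ne_zero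
  have du' : ∀ i j, Differentiable ℝ (pd j (fun y => u t y i)) := fun i j =>
    (pd_contDiff (n := 1) (contDiff_pi.1 hu2 i) j).differentiable one_ne_zero
  have dv' : ∀ i j, Differentiable ℝ (pd j (fun y => v t y i)) := fun i j =>
    (pd_contDiff (n := 1) (contDiff_pi.1 hv2 i) j).differentiable one_ne_zero
  have ew : ∀ i j : Fin 3, pd j (fun y => (v t y - u t y) i) =
      fun x => pd j (fun y => v t y i) x - pd j (fun y => u t y i) x := fun i j => by
    funext x
    exact pd_sub (dv i) (du i) j x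
  have ew' : ∀ i j : Fin 3, pd j (fun y => v t y i - u t y i) =
      fun x => pd j (fun y => v t y i) x - pd j (fun y => u t y i) x := ew
  have eww : ∀ i j k : Fin 3, pd k (fun x => pd j (fun y => v t y i) x
      - pd j (fun y => u t y i) x) x =
      pd k (pd j (fun y => v t y i)) x - pd k (pd j (fun y => u t y i)) x := fun i j k =>
    pd_sub (dv' i j) (du' i j) k x
  have er : ∀ j : Fin 3, pd j (fun z => q t z - p t z) x = pd j (q t) x - pd j (p t) x :=
    fun j => pd_sub (hq1.differentiable one_ne_zero) (hp1.differentiable one_ne_zero) j x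
  have mu := hu.momentum t ht x
  have mv := hv.momentum t ht x
  have iu := hu.incompressible t ht x
  have iv := hv.incompressible t ht x
  simp only [pd_gField ν hv2 hw2 hr1, ew, ew', eww, er]
  simp only [Fin.sum_univ_three] at mu mv iu iv ⊢
  have mu0 := mu 0
  have mu1 := mu 1
  have mu2 := mu 2
  have mv0 := mv 0
  have mv1 := mv 1
  have mv2 := mv 2
  unfold rateDiff
  simp only [Pi.sub_apply]
  linear_combination (v t x 0 - u t x 0) * (mv0 - mu0) + (v t x 1 - u t x 1) * (mv1 - mu1)
    + (v t x 2 - u t x 2) * (mv2 - mu2)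
    + (1 / 2 * ((v t x 0 - u t x 0) ^ 2 + (v t x 1 - u t x 1) ^ 2 + (v t x 2 - u t x 2) ^ 2)) * iv
    + (q t x - p t x) * (iv - iu)

theorem prod_bound {a b S : ℝ} (d : ℝ) (ha : a * a ≤ S) (hb : b * b ≤ S) :
    -(a * b * d) ≤ S * |d| := by
  have h1 : |a * b| ≤ S := by
    rw [abs_le]
    constructor <;> nlinarith [sq_nonneg (a + b), sq_nonneg (a - b)]
  calc -(a * b * d) ≤ |a * b * d| := neg_le_abs _
    _ = |a * b| * |d| := abs_mul _ _
    _ ≤ S * |d| := mul_le_mul_of_nonneg_right h1 (abs_nonneg _)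

theorem sqDiff_nonneg (t : ℝ) (x : R3) : 0 ≤ sqDiff u v t x := by
  unfold sqDiff
  nlinarith [mul_self_nonneg (v t x 0 - u t x 0), mul_self_nonneg (v t x 1 - u t x 1),
    mul_self_nonneg (v t x 2 - u t x 2)]

theorem comp_le_sqDiff (t : ℝ) (x : R3) (i : Fin 3) :
    (v t x i - u t x i) * (v t x i - u t x i) ≤ sqDiff u v t x := by
  unfold sqDiff
  fin_cases i <;> simp only [Fin.zero_eta, Fin.mk_one, Fin.reduceFinMk] <;>
  nlinarith [mul_self_nonneg (v t x 0 - u t x 0), mul_self_nonneg (v t x 1 - u t x 1),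
    mul_self_nonneg (v t x 2 - u t x 2)]

theorem rate_le (hν : 0 < ν) (hu : IsClassicalSolution ν f (Icc 0 T) u p)
    (hv : IsClassicalSolution ν f (Icc 0 T) v q) {K : ℝ} {t : ℝ} (ht : t ∈ Icc 0 T) (x : R3)
    (hK : ∑ i, ∑ j, |pd j (fun y => u t y i) x| ≤ K) :
    rateDiff T u v t x ≤ (∑ i, pd i (fun y => gField ν (v t) (fun z => v t z - u t z)
        (fun z => q t z - p t z) y i) x) + K * sqDiff u v t x := by
  rw [rate_identity hu hv ht x]
  have h1 : 0 ≤ ν * ∑ i, ∑ j, pd i (fun y => v t y j - u t y j) x ^ 2 :=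
    mul_nonneg hν.le (Finset.sum_nonneg fun i _ => Finset.sum_nonneg fun j _ => sq_nonneg _)
  have h2 : -(∑ i, ∑ j, (v t x i - u t x i) * (v t x j - u t x j) * pd j (fun y => u t y i) x)
      ≤ K * sqDiff u v t x := by
    have h3 : -(∑ i, ∑ j, (v t x i - u t x i) * (v t x j - u t x j) *
        pd j (fun y => u t y i) x) ≤ ∑ i, ∑ j, sqDiff u v t x * |pd j (fun y => u t y i) x| := by
      rw [← Finset.sum_neg_distrib]
      refine Finset.sum_le_sum fun i _ => ?_
      rw [← Finset.sum_neg_distrib]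
      refine Finset.sum_le_sum fun j _ => ?_
      exact prod_bound _ (comp_le_sqDiff t x i) (comp_le_sqDiff t x j)
    refine h3.trans ?_
    simp only [← Finset.mul_sum]
    rw [mul_comm]
    exact mul_le_mul_of_nonneg_right hK (sqDiff_nonneg t x)
  linarith

theorem continuousOn_comp {α : Type} [TopologicalSpace α] {F : α → R3} {s : Set α}
    (h : ContinuousOn F s) (i : Fin 3) : ContinuousOn (fun a => F a i) s :=
  (continuous_apply i).comp_continuousOn h

theorem sqDiff_continuousOn (hu : IsClassicalSolution ν f (Icc 0 T) u p)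
    (hv : IsClassicalSolution ν f (Icc 0 T) v q) :
    ContinuousOn (fun z : ℝ × R3 => sqDiff u v z.1 z.2) (Icc 0 T ×ˢ univ) := by
  have h : ∀ i, ContinuousOn (fun z : ℝ × R3 => v z.1 z.2 i - u z.1 z.2 i) (Icc 0 T ×ˢ univ) :=
    fun i => (continuousOn_comp hv.continuous_u i).sub (continuousOn_comp hu.continuous_u i)
  unfold sqDiff
  exact (((h 0).mul (h 0)).add ((h 1).mul (h 1))).add ((h 2).mul (h 2))

theorem rateDiff_continuousOn (hu : IsClassicalSolution ν f (Icc 0 T) u p)
    (hv : IsClassicalSolution ν f (Icc 0 T) v q) :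
    ContinuousOn (fun z : ℝ × R3 => rateDiff T u v z.1 z.2) (Icc 0 T ×ˢ univ) := by
  have h : ∀ i, ContinuousOn (fun z : ℝ × R3 => v z.1 z.2 i - u z.1 z.2 i) (Icc 0 T ×ˢ univ) :=
    fun i => (continuousOn_comp hv.continuous_u i).sub (continuousOn_comp hu.continuous_u i)
  have h' : ∀ i, ContinuousOn (fun z : ℝ × R3 => derivWithin (fun s => v s z.2) (Icc 0 T) z.1 i
      - derivWithin (fun s => u s z.2) (Icc 0 T) z.1 i) (Icc 0 T ×ˢ univ) :=
    fun i => (continuousOn_comp hv.continuous_time i).sub (continuousOn_comp hu.continuous_time i)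
  unfold rateDiff
  exact (((h 0).mul (h' 0)).add ((h 1).mul (h' 1))).add ((h 2).mul (h' 2))

theorem slice {F : ℝ × R3 → ℝ} {I : Set ℝ} (h : ContinuousOn F (I ×ˢ univ)) {t : ℝ}
    (ht : t ∈ I) : Continuous (fun x => F (t, x)) :=
  h.comp_continuous (by fun_prop) (fun _ => ⟨ht, mem_univ _⟩)

theorem slice_time {F : ℝ × R3 → ℝ} {I : Set ℝ} (h : ContinuousOn F (I ×ˢ univ)) (x : R3) :
    ContinuousOn (fun t => F (t, x)) I :=
  h.comp (by fun_prop) (fun _ ht => ⟨ht, mem_univ _⟩)

theorem exists_bound {F : ℝ × R3 → ℝ} (h : ContinuousOn F (Icc 0 T ×ˢ univ)) :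
    ∃ B, ∀ t ∈ Icc 0 T, ∀ x ∈ Icc (0 : R3) 1, |F (t, x)| ≤ B := by
  obtain ⟨B, hB⟩ := (isCompact_Icc (a := (0 : ℝ)) (b := T)).prod
    (isCompact_Icc (a := (0 : R3)) (b := 1)) |>.exists_bound_of_continuousOn
    (h.mono (prod_mono_right (subset_univ _)))
  exact ⟨B, fun t ht x hx => hB (t, x) ⟨ht, hx⟩⟩

theorem sqDiff_hasDerivAt (hu : IsClassicalSolution ν f (Icc 0 T) u p)
    (hv : IsClassicalSolution ν f (Icc 0 T) v q) {t : ℝ} (ht : t ∈ Ioo 0 T) (x : R3) :
    HasDerivAt (fun s => sqDiff u v s x) (2 * rateDiff T u v t x) t := by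
  have h1 : ∀ i, HasDerivAt (fun s => v s x i - u s x i)
      (derivWithin (fun s => v s x) (Icc 0 T) t i - derivWithin (fun s => u s x) (Icc 0 T) t i)
      t := by
    intro i
    have a := ((hv.differentiable_time t (Ioo_subset_Icc_self ht) x).hasDerivWithinAt).hasDerivAt
      (Icc_mem_nhds ht.1 ht.2)
    have b := ((hu.differentiable_time t (Ioo_subset_Icc_self ht) x).hasDerivWithinAt).hasDerivAt
      (Icc_mem_nhds ht.1 ht.2)
    exact (hasDerivAt_pi.1 a i).sub (hasDerivAt_pi.1 b i)
  have h := (((h1 0).mul (h1 0)).add ((h1 1).mul (h1 1))).add ((h1 2).mul (h1 2))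
  refine h.congr_deriv ?_
  unfold rateDiff
  ring

/-- The energy of the difference. -/
noncomputable def energyDiff (u v : ℝ → R3 → R3) (t : ℝ) : ℝ :=
  ∫ x in Icc (0 : R3) 1, sqDiff u v t x

theorem energy_hasDerivAt (hu : IsClassicalSolution ν f (Icc 0 T) u p)
    (hv : IsClassicalSolution ν f (Icc 0 T) v q) {t : ℝ} (ht : t ∈ Ioo 0 T) :
    HasDerivAt (energyDiff u v) (∫ x in Icc (0 : R3) 1, 2 * rateDiff T u v t x) t := by
  obtain ⟨B, hB⟩ := exists_bound (rateDiff_continuousOn hu hv)
  have hs := sqDiff_continuousOn hu hv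
  have hr := rateDiff_continuousOn hu hv
  have hI : Ioo 0 T ⊆ Icc 0 T := Ioo_subset_Icc_self
  refine (hasDerivAt_integral_of_dominated_loc_of_deriv_le (s := Ioo 0 T)
    (bound := fun _ => 2 * B) (F' := fun t x => 2 * rateDiff T u v t x)
    (Ioo_mem_nhds ht.1 ht.2) ?_ ?_ ?_ ?_ ?_ ?_).2
  · filter_upwards [Ioo_mem_nhds ht.1 ht.2] with s hs'
    exact (slice hs (hI hs')).aestronglyMeasurable
  · exact (slice hs (hI ht)).continuousOn.integrableOn_compact isCompact_Icc
  · exact ((slice hr (hI ht)).const_mul 2).aestronglyMeasurable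
  · refine (ae_restrict_iff' measurableSet_Icc).2 (ae_of_all _ fun x hx s hs' => ?_)
    rw [Real.norm_eq_abs, abs_mul, abs_two]
    exact mul_le_mul_of_nonneg_left (hB s (hI hs') x hx) two_pos.le
  · exact (continuous_const.continuousOn).integrableOn_compact isCompact_Icc
  · exact ae_of_all _ fun x s hs' => sqDiff_hasDerivAt hu hv hs' x

theorem energy_continuousOn (hu : IsClassicalSolution ν f (Icc 0 T) u p)
    (hv : IsClassicalSolution ν f (Icc 0 T) v q) : ContinuousOn (energyDiff u v) (Icc 0 T) := by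
  obtain ⟨B, hB⟩ := exists_bound (sqDiff_continuousOn hu hv)
  have hs := sqDiff_continuousOn hu hv
  refine continuousOn_of_dominated (bound := fun _ => B) ?_ ?_ ?_ ?_
  · intro s hs'
    exact (slice hs hs').aestronglyMeasurable
  · intro s hs'
    exact (ae_restrict_iff' measurableSet_Icc).2 (ae_of_all _ fun x hx => hB s hs' x hx)
  · exact (continuous_const.continuousOn).integrableOn_compact isCompact_Icc
  · exact ae_of_all _ fun x => slice_time hs x

theorem energy_rate_le (hν : 0 < ν) (hu : IsClassicalSolution ν f (Icc 0 T) u p)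
    (hv : IsClassicalSolution ν f (Icc 0 T) v q) {K : ℝ} {t : ℝ} (ht : t ∈ Icc 0 T)
    (hK : ∀ x ∈ Icc (0 : R3) 1, ∑ i, ∑ j, |pd j (fun y => u t y i) x| ≤ K) :
    ∫ x in Icc (0 : R3) 1, 2 * rateDiff T u v t x ≤ 2 * K * energyDiff u v t := by
  have hw2 : ContDiff ℝ 2 (fun z => v t z - u t z) := (hv.contDiff_u t ht).sub (hu.contDiff_u t ht)
  have hr1 : ContDiff ℝ 1 (fun z => q t z - p t z) := (hv.contDiff_p t ht).sub (hu.contDiff_p t ht)
  have hG := gField_contDiff ν (hv.contDiff_u t ht) hw2 hr1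
  have hwp : Periodic3 (fun z => v t z - u t z) := fun x k => by
    simp only [hv.periodic_u t ht x k, hu.periodic_u t ht x k]
  have hrp : Periodic3 (fun z => q t z - p t z) := fun x k => by
    simp only [hv.periodic_p t ht x k, hu.periodic_p t ht x k]
  have hGp := gField_periodic ν (hv.periodic_u t ht) hwp hrp
  have h0 := integral_div_eq_zero hG hGp
  have hs := slice (sqDiff_continuousOn hu hv) ht
  have hr := slice (rateDiff_continuousOn hu hv) ht
  have hdiv : Continuous (fun x => ∑ i, pd i (fun y => gField ν (v t) (fun z => v t z - u t z)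
        (fun z => q t z - p t z) y i) x) :=
    continuous_finsetSum _ fun i _ => (pd_contDiff (n := 0) (contDiff_pi.1 hG i) i).continuous
  have iI : ∀ {g : R3 → ℝ}, Continuous g → IntegrableOn g (Icc (0 : R3) 1) := fun hg =>
    hg.continuousOn.integrableOn_compact isCompact_Icc
  have h1 : ∫ x in Icc (0 : R3) 1, rateDiff T u v t x ≤
      ∫ x in Icc (0 : R3) 1, ((∑ i, pd i (fun y => gField ν (v t) (fun z => v t z - u t z)
        (fun z => q t z - p t z) y i) x) + K * sqDiff u v t x) :=
    setIntegral_mono_on (iI hr) (iI (hdiv.add (hs.const_mul K))) measurableSet_Icc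
      fun x hx => rate_le hν hu hv ht x (hK x hx)
  rw [integral_add (iI hdiv) (iI (hs.const_mul K)), h0, integral_const_mul] at h1
  rw [integral_const_mul]
  unfold energyDiff
  linarith

theorem energy_eq_zero (hν : 0 < ν) (hu : IsClassicalSolution ν f (Icc 0 T) u p)
    (hv : IsClassicalSolution ν f (Icc 0 T) v q) {t : ℝ} (ht : t ∈ Icc 0 T) :
    energyDiff u v t = 0 := by
  have hT : 0 ≤ T := ht.1.trans ht.2
  obtain ⟨K, hK⟩ := exists_bound (T := T) (F := fun z => ∑ i, ∑ j,
    |pd j (fun y => u z.1 y i) z.2|) (continuousOn_finsetSum _ fun i _ =>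
      continuousOn_finsetSum _ fun j _ => (hu.continuous_du i j).abs)
  have hK' : ∀ t ∈ Icc 0 T, ∀ x ∈ Icc (0 : R3) 1,
      ∑ i, ∑ j, |pd j (fun y => u t y i) x| ≤ K := fun t ht x hx =>
    (le_abs_self _).trans (hK t ht x hx)
  have hanti : AntitoneOn (fun s => Real.exp (-(2 * K * s)) * energyDiff u v s) (Icc 0 T) := by
    have hd : ∀ s ∈ Ioo 0 T, HasDerivAt (fun s => Real.exp (-(2 * K * s)) * energyDiff u v s)
        (Real.exp (-(2 * K * s)) * (-(2 * K)) * energyDiff u v s
          + Real.exp (-(2 * K * s)) * ∫ x in Icc (0 : R3) 1, 2 * rateDiff T u v s x) s := by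
      intro s hs
      have h1 : HasDerivAt (fun s : ℝ => -(2 * K * s)) (-(2 * K)) s := by
        have := ((hasDerivAt_id s).const_mul (2 * K)).neg
        rw [mul_one] at this
        exact this
      exact h1.exp.mul (energy_hasDerivAt hu hv hs)
    refine antitoneOn_of_deriv_nonpos (convex_Icc 0 T) ?_ ?_ ?_
    · exact (Continuous.continuousOn (by fun_prop)).mul (energy_continuousOn hu hv)
    · rw [interior_Icc]
      exact fun s hs => (hd s hs).differentiableAt.differentiableWithinAt
    · rw [interior_Icc]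
      intro s hs
      rw [(hd s hs).deriv]
      have h2 := energy_rate_le hν hu hv (Ioo_subset_Icc_self hs) (hK' s (Ioo_subset_Icc_self hs))
      have h3 := mul_le_mul_of_nonneg_left h2 (Real.exp_pos (-(2 * K * s))).le
      nlinarith
  have h0 : energyDiff u v 0 = 0 := by
    have : ∀ x, sqDiff u v 0 x = 0 := fun x => by
      unfold sqDiff
      rw [hu.initial, hv.initial]
      simp
    simp [energyDiff, this]
  have h1 := hanti ⟨le_rfl, hT⟩ ht ht.1
  simp only [h0, mul_zero] at h1
  have h2 : energyDiff u v t ≤ 0 := by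
    by_contra h
    push Not at h
    exact absurd h1 (not_le.2 (mul_pos (Real.exp_pos _) h))
  exact le_antisymm h2 (setIntegral_nonneg measurableSet_Icc fun x _ => sqDiff_nonneg t x)

theorem cube_subset_closure_interior : Icc (0 : R3) 1 ⊆ closure (interior (Icc (0 : R3) 1)) := by
  rw [← Set.pi_univ_Icc, interior_pi_set finite_univ, closure_pi_set]
  refine Set.pi_mono fun _ _ => ?_
  simp only [Pi.zero_apply, Pi.one_apply, interior_Icc]
  rw [closure_Ioo zero_ne_one]

theorem exists_cube (x : R3) : ∃ y ∈ Icc (0 : R3) 1, ∃ k : Fin 3 → ℤ, x = fun i => y i + k i :=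
  ⟨fun i => Int.fract (x i), ⟨fun _ => Int.fract_nonneg _, fun _ => (Int.fract_lt_one _).le⟩,
    fun i => ⌊x i⌋, funext fun i => (Int.fract_add_floor (x i)).symm⟩

theorem eq_zero_of_integral {g : R3 → ℝ} (hg : Continuous g) (hp : Periodic3 g)
    (h0 : ∀ x, 0 ≤ g x) (hi : ∫ x in Icc (0 : R3) 1, g x = 0) (x : R3) : g x = 0 := by
  have h1 := (setIntegral_eq_zero_iff_of_nonneg_ae (ae_of_all _ h0)
    (hg.continuousOn.integrableOn_compact isCompact_Icc)).1 hi
  have h2 : EqOn g 0 (Icc (0 : R3) 1) :=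
    Measure.eqOn_of_ae_eq h1 hg.continuousOn continuousOn_const cube_subset_closure_interior
  obtain ⟨y, hy, k, rfl⟩ := exists_cube x
  rw [hp]
  exact h2 hy

theorem velocity_unique (hν : 0 < ν) (hu : IsClassicalSolution ν f (Icc 0 T) u p)
    (hv : IsClassicalSolution ν f (Icc 0 T) v q) {t : ℝ} (ht : t ∈ Icc 0 T) : v t = u t := by
  funext x
  have h0 := eq_zero_of_integral (slice (sqDiff_continuousOn hu hv) ht) (fun x k => by
    simp only [sqDiff, hv.periodic_u t ht x k, hu.periodic_u t ht x k])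
    (fun x => sqDiff_nonneg t x) (energy_eq_zero hν hu hv ht) x
  funext i
  have h1 := comp_le_sqDiff (u := u) (v := v) t x i
  simp only at h0
  rw [h0] at h1
  have h2 : (v t x i - u t x i) = 0 := by
    have := le_antisymm h1 (mul_self_nonneg _)
    exact mul_self_eq_zero.1 this
  linarith

theorem eq_of_pd_eq {g h : R3 → ℝ} (hg : ContDiff ℝ 1 g) (hh : ContDiff ℝ 1 h)
    (hd : ∀ x j, pd j g x = pd j h x)
    (hm : ∫ x in Icc (0 : R3) 1, g x = ∫ x in Icc (0 : R3) 1, h x) (x : R3) : g x = h x := by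
  have dg := hg.differentiable one_ne_zero
  have dh := hh.differentiable one_ne_zero
  have e0 : ∀ x, fderiv ℝ g x = fderiv ℝ h x := by
    intro x
    have h1 : ∀ j, fderiv ℝ g x (Pi.single j 1) = fderiv ℝ h x (Pi.single j 1) := fun j => by
      rw [← pd_eq_fderiv (dg x), ← pd_eq_fderiv (dh x), hd]
    have h2 : (fderiv ℝ g x : R3 →ₗ[ℝ] ℝ) = (fderiv ℝ h x : R3 →ₗ[ℝ] ℝ) := by
      refine LinearMap.pi_ext fun j r => ?_
      have e : (Pi.single j r : R3) = r • Pi.single j 1 := by
        rw [← Pi.single_smul, smul_eq_mul, mul_one]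
      rw [e, map_smul, map_smul]
      exact congrArg _ (h1 j)
    exact ContinuousLinearMap.coe_injective h2
  have e1 : ∀ x, fderiv ℝ (fun y => g y - h y) x = 0 := by
    intro x
    have : fderiv ℝ (fun y => g y - h y) x = fderiv ℝ g x - fderiv ℝ h x :=
      fderiv_sub (dg x) (dh x)
    rw [this, e0, sub_self]
  have e2 : ∀ y, g y - h y = g x - h x := fun y =>
    is_const_of_fderiv_eq_zero (𝕜 := ℝ) (dg.sub dh) e1 y x
  have iI : ∀ {g : R3 → ℝ}, Continuous g → IntegrableOn g (Icc (0 : R3) 1) := fun hg =>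
    hg.continuousOn.integrableOn_compact isCompact_Icc
  have e3 : ∫ y in Icc (0 : R3) 1, (g y - h y) = 0 := by
    rw [integral_sub (iI hg.continuous) (iI hh.continuous), hm, sub_self]
  simp only [e2] at e3
  rw [setIntegral_const, smul_eq_mul] at e3
  have e4 : volume.real (Icc (0 : R3) 1) = 1 := by
    simp [Measure.real, Real.volume_Icc_pi]
  rw [e4, one_mul] at e3
  linarith

theorem uniqueness (hν : 0 < ν)
    (hu : IsClassicalSolution ν f (Icc 0 T) u p) (hv : IsClassicalSolution ν f (Icc 0 T) v q) :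
    ∀ t ∈ Icc 0 T, ∀ x, v t x = u t x ∧ q t x = p t x := by
  intro t ht x
  have hE : ∀ s ∈ Icc 0 T, v s = u s := fun s hs => velocity_unique hν hu hv hs
  refine ⟨congrFun (hE t ht) x, ?_⟩
  refine eq_of_pd_eq (hv.contDiff_p t ht) (hu.contDiff_p t ht) (fun y j => ?_) ?_ x
  · have mu := hu.momentum t ht y j
    have mv := hv.momentum t ht y j
    have e1 : derivWithin (fun s => v s y) (Icc 0 T) t = derivWithin (fun s => u s y) (Icc 0 T) t :=
      derivWithin_congr (fun s hs => by rw [hE s hs]) (by rw [hE t ht])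
    rw [e1, hE t ht] at mv
    linarith
  · rw [hu.mean_zero t ht, hv.mean_zero t ht]

end Two

end Vale.Agent.P113
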