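import Vale.Agent.P113.Compile
import Vale.Agent.P113.Uniq

open Set

namespace Vale.Agent.P113

theorem main (ν : ℝ) (hν : 0 < ν) (hc : IsComputableReal ν) :
    ∃ (a : T3) (O : Set T3) (comp : Machine × List ℕ → Nat.Partrec.Code)
      (f : Machine → List ℕ → ℝ → R3 → R3),
      IsOpen O ∧ IsForceCompiler comp f ∧
      ∀ (M : Machine) (w : List ℕ), ∃ (u : ℝ → R3 → R3) (p : ℝ → R3 → ℝ),
        IsGlobalSmoothSolution ν (f M w) u p ∧
        (∀ T > 0, IsClassicalSolution ν (f M w) (Icc 0 T) u p ∧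
          ∀ v q, IsClassicalSolution ν (f M w) (Icc 0 T) v q →
            ∀ t ∈ Icc 0 T, ∀ x, v t x = u t x ∧ q t x = p t x) ∧
        (∃ X, IsTrajectory u a X) ∧
        ∀ X, IsTrajectory u a X → ((∃ t ≥ 0, toT3 (X t) ∈ O) ↔ HaltsOn M w) := by
  obtain ⟨comp, hcomp, hC⟩ := exists_compiler hc
  refine ⟨toT3 0, target, comp, fun M w => fSol ν (amp (M, w)), isOpen_target,
    ⟨hcomp, fun M w => ⟨⟨fun t _ => fSol_periodic ν _ t, (fSol_contDiff ν _).contDiffOn⟩, hC M w⟩,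
      1, zero_le_one, fun M => ⟨1, one_pos, fun w t ht x => fSol_time_periodic ν _ ht x⟩,
      fun M w w' t ht x => fSol_indep ν _ _ ht x⟩, fun M w => ?_⟩
  refine ⟨uSol (amp (M, w)), fun _ _ => 0,
    ⟨isClassicalSolution_uSol ν _ (uniqueDiffOn_Ici 0) Subset.rfl,
      (uSol_contDiff _).contDiffOn, contDiffOn_const⟩, ?_, ⟨_, traj_isTrajectory _⟩, ?_⟩
  · intro T hT
    have h := isClassicalSolution_uSol ν (amp (M, w)) (uniqueDiffOn_Icc hT) Icc_subset_Ici_self
    exact ⟨h, fun v q hv => uniqueness hν h hv⟩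
  · intro X hX
    by_cases hH : HaltsOn M w
    · obtain ⟨h0, h1⟩ := amp_of_halts (a := (M, w)) hH
      exact ⟨fun _ => hH, fun _ => hits_of_pos h0 h1 hX⟩
    · have h0 : amp (M, w) = 0 := amp_of_not_halts (a := (M, w)) hH
      rw [h0] at hX
      exact ⟨fun h => absurd h (not_hits_zero hX), fun h => absurd h hH⟩

end Vale.Agent.P113
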