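import Vale.Agent.P113.Defs
import Vale.Agent.P113.Bump

open Set Filter Topology MeasureTheory
open scoped ContDiff

namespace Vale.Agent.P113

/-- The velocity field. -/
noncomputable def uSol (P : ℝ) (t : ℝ) (x : R3) : R3 := ![P * lam t, b2 t * bb (x 0), 0]

/-- The force. -/
noncomputable def fSol (ν P : ℝ) (t : ℝ) (x : R3) : R3 :=
  ![P * deriv lam t, deriv b2 t * bb (x 0) - ν * (b2 t * deriv (deriv bb) (x 0)), 0]

theorem pd_const (j : Fin 3) (c : ℝ) : pd j (fun _ => c) = fun _ => 0 := by
  funext x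
  simp [pd]

theorem pd_proj (j : Fin 3) (g : ℝ → ℝ) :
    pd j (fun y : R3 => g (y 0)) = fun x => if j = 0 then deriv g (x 0) else 0 := by
  funext x
  unfold pd
  by_cases hj : j = 0
  · subst hj
    simp
  · rw [if_neg hj]
    have : (fun s : ℝ => g (Function.update x j s 0)) = fun _ => g (x 0) := by
      funext s
      rw [Function.update_of_ne (Ne.symm hj)]
    rw [this]
    simp

theorem deriv_bb_contDiff : ContDiff ℝ ∞ (deriv bb) := (contDiff_infty_iff_deriv.1 bb_contDiff).2

theorem deriv2_bb_contDiff : ContDiff ℝ ∞ (deriv (deriv bb)) :=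
  (contDiff_infty_iff_deriv.1 deriv_bb_contDiff).2

theorem deriv_b2_contDiff : ContDiff ℝ ∞ (deriv b2) := (contDiff_infty_iff_deriv.1 b2_contDiff).2

theorem deriv_lam_contDiff : ContDiff ℝ ∞ (deriv lam) := flat_lam.deriv.smooth

theorem bb_add_int (x : ℝ) (k : ℤ) : bb (x + k) = bb x := per_periodic _ _ _

theorem deriv_bb : deriv bb = per (deriv lam) := per_deriv flat_lam

theorem deriv2_bb : deriv (deriv bb) = per (deriv (deriv lam)) := by
  rw [deriv_bb, per_deriv flat_lam.deriv]

/-- derivative of velocity components -/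
theorem pd_u (P t : ℝ) (i j : Fin 3) : pd j (fun y => uSol P t y i) =
    fun x => if i = 1 ∧ j = 0 then b2 t * deriv bb (x 0) else 0 := by
  fin_cases i
  · simpa [uSol] using pd_const j (P * lam t)
  · have h := pd_proj j (fun s => b2 t * bb s)
    funext x
    have h' := congrFun h x
    have e : deriv (fun s => b2 t * bb s) (x 0) = b2 t * deriv bb (x 0) := by
      rw [deriv_const_mul]
      exact (bb_contDiff.differentiable (by simp)) _
    rw [e] at h'
    simpa [uSol] using h'
  · simpa [uSol] using pd_const j 0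

theorem pd_pd_u (P t : ℝ) (i j k : Fin 3) : pd k (pd j (fun y => uSol P t y i)) =
    fun x => if i = 1 ∧ j = 0 ∧ k = 0 then b2 t * deriv (deriv bb) (x 0) else 0 := by
  rw [pd_u]
  by_cases h : i = 1 ∧ j = 0
  · obtain ⟨rfl, rfl⟩ := h
    have h := pd_proj k (fun s => b2 t * deriv bb s)
    funext x
    have h' := congrFun h x
    have e : deriv (fun s => b2 t * deriv bb s) (x 0) = b2 t * deriv (deriv bb) (x 0) := by
      rw [deriv_const_mul]
      exact (deriv_bb_contDiff.differentiable (by simp)) _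
    rw [e] at h'
    simpa using h'
  · simp only [if_neg h]
    rw [pd_const]
    funext x
    rw [if_neg]
    rintro ⟨h1, h2, -⟩
    exact h ⟨h1, h2⟩

theorem uSol_hasDerivAt (P t : ℝ) (x : R3) :
    HasDerivAt (fun s => uSol P s x) ![P * deriv lam t, deriv b2 t * bb (x 0), 0] t := by
  have h1 : HasDerivAt lam (deriv lam t) t :=
    (flat_lam.smooth.differentiable (by simp) t).hasDerivAt
  have h2 : HasDerivAt b2 (deriv b2 t) t := (b2_contDiff.differentiable (by simp) t).hasDerivAt
  rw [hasDerivAt_pi]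
  intro i
  fin_cases i
  · simpa [uSol] using h1.const_mul P
  · simpa [uSol] using h2.mul_const (bb (x 0))
  · simpa [uSol] using hasDerivAt_const t (0 : ℝ)

theorem uSol_contDiff (P : ℝ) : ContDiff ℝ ∞ (fun q : ℝ × R3 => uSol P q.1 q.2) := by
  rw [contDiff_pi]
  intro i
  have hfst : ContDiff ℝ ∞ (fun q : ℝ × R3 => q.1) := contDiff_fst
  have hx0 : ContDiff ℝ ∞ (fun q : ℝ × R3 => q.2 0) :=
    (contDiff_apply ℝ ℝ (0 : Fin 3)).comp contDiff_snd
  fin_cases i
  · simpa [uSol] using contDiff_const.mul (flat_lam.smooth.comp hfst)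
  · simpa [uSol] using (b2_contDiff.comp hfst).mul (bb_contDiff.comp hx0)
  · simpa [uSol] using (contDiff_const : ContDiff ℝ ∞ (fun _ : ℝ × R3 => (0 : ℝ)))

theorem fSol_contDiff (ν P : ℝ) : ContDiff ℝ ∞ (fun q : ℝ × R3 => fSol ν P q.1 q.2) := by
  rw [contDiff_pi]
  intro i
  have hfst : ContDiff ℝ ∞ (fun q : ℝ × R3 => q.1) := contDiff_fst
  have hx0 : ContDiff ℝ ∞ (fun q : ℝ × R3 => q.2 0) :=
    (contDiff_apply ℝ ℝ (0 : Fin 3)).comp contDiff_snd
  fin_cases i
  · simpa [fSol] using contDiff_const.mul (deriv_lam_contDiff.comp hfst)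
  · simpa [fSol] using ((deriv_b2_contDiff.comp hfst).mul (bb_contDiff.comp hx0)).sub
      (contDiff_const.mul ((b2_contDiff.comp hfst).mul (deriv2_bb_contDiff.comp hx0)))
  · simpa [fSol] using (contDiff_const : ContDiff ℝ ∞ (fun _ : ℝ × R3 => (0 : ℝ)))

theorem fSol_periodic (ν P t : ℝ) : Periodic3 (fSol ν P t) := by
  intro x k
  unfold fSol
  simp only
  rw [bb_add_int, deriv2_bb, per_periodic]

theorem uSol_periodic (P t : ℝ) : Periodic3 (uSol P t) := by
  intro x k
  unfold uSol
  simp only
  rw [bb_add_int]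

theorem isClassicalSolution_uSol (ν P : ℝ) {I : Set ℝ} (hI : UniqueDiffOn ℝ I)
    (hI0 : I ⊆ Ici 0) : IsClassicalSolution ν (fSol ν P) I (uSol P) (fun _ _ => 0) := by
  have hu := uSol_contDiff P
  have hut : ∀ t, ContDiff ℝ ∞ (uSol P t) := fun t =>
    hu.comp (contDiff_const.prodMk contDiff_id : ContDiff ℝ ∞ (fun x : R3 => (t, x)))
  have hdt : ∀ t ∈ I, ∀ x, derivWithin (fun s => uSol P s x) I t =
      ![P * deriv lam t, deriv b2 t * bb (x 0), 0] := fun t ht x =>
    (uSol_hasDerivAt P t x).hasDerivWithinAt.derivWithin (hI t ht)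
  have cl : Continuous lam := flat_lam.smooth.continuous
  have cl' : Continuous (deriv lam) := deriv_lam_contDiff.continuous
  have cb2 : Continuous b2 := b2_contDiff.continuous
  have cb2' : Continuous (deriv b2) := deriv_b2_contDiff.continuous
  have cbb : Continuous bb := bb_contDiff.continuous
  have cbb' : Continuous (deriv bb) := deriv_bb_contDiff.continuous
  have cbb'' : Continuous (deriv (deriv bb)) := deriv2_bb_contDiff.continuous
  refine ⟨?_, ?_, ?_, ?_, ?_, ?_, ?_, ?_, ?_, ?_, ?_, ?_, ?_, ?_, ?_⟩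
  · intro t _
    exact uSol_periodic P t
  · intro t _ x k
    rfl
  · intro t _
    exact_mod_cast contDiff_infty.1 (hut t) 2
  · intro t _
    exact contDiff_const
  · intro t _ x
    exact (uSol_hasDerivAt P t x).differentiableAt.differentiableWithinAt
  · exact hu.continuous.continuousOn
  · have hc : Continuous (fun q : ℝ × R3 =>
        (![P * deriv lam q.1, deriv b2 q.1 * bb (q.2 0), 0] : R3)) := by
      rw [continuous_pi_iff]
      intro i
      fin_cases i
      · simp; fun_prop
      · simp; fun_prop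
      · simp; fun_prop
    refine hc.continuousOn.congr ?_
    rintro ⟨t, x⟩ ⟨ht, -⟩
    exact hdt t ht x
  · intro i j
    have : (fun q : ℝ × R3 => pd j (fun y => uSol P q.1 y i) q.2) =
        fun q => if i = 1 ∧ j = 0 then b2 q.1 * deriv bb (q.2 0) else 0 := by
      funext q
      rw [pd_u]
    rw [this]
    by_cases h : i = 1 ∧ j = 0
    · simp only [if_pos h]
      exact Continuous.continuousOn (by fun_prop)
    · simp only [if_neg h]
      exact continuousOn_const
  · intro i j k
    have : (fun q : ℝ × R3 => pd k (pd j (fun y => uSol P q.1 y i)) q.2) =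
        fun q => if i = 1 ∧ j = 0 ∧ k = 0 then b2 q.1 * deriv (deriv bb) (q.2 0) else 0 := by
      funext q
      rw [pd_pd_u]
    rw [this]
    by_cases h : i = 1 ∧ j = 0 ∧ k = 0
    · simp only [if_pos h]
      exact Continuous.continuousOn (by fun_prop)
    · simp only [if_neg h]
      exact continuousOn_const
  · exact continuousOn_const
  · intro j
    have : (fun q : ℝ × R3 => pd j (fun _ : R3 => (0 : ℝ)) q.2) = fun _ => 0 := by
      funext q
      rw [pd_const]
    rw [this]
    exact continuousOn_const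
  · intro t ht x i
    rw [hdt t ht x, pd_const]
    have ht0 : (0 : ℝ) ≤ t := hI0 ht
    have hz := lam_mul_b2 ht0
    simp only [pd_pd_u]
    simp only [pd_u, Fin.sum_univ_three]
    fin_cases i
    · simp [uSol, fSol]
    · rcases mul_eq_zero.1 hz with h | h <;> simp [uSol, fSol, h]
    · simp [uSol, fSol]
  · intro t _ x
    simp [pd_u, Fin.sum_univ_three]
  · intro x
    unfold uSol
    rw [flat_lam.zero 0 (Or.inl le_rfl), b2_of_le_one le_rfl zero_le_one]
    ext i
    fin_cases i <;> simp
  · intro t _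
    simp

end Vale.Agent.P113
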