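import Vale.Agent.P113.Sol

open Set Filter Topology MeasureTheory
open scoped ContDiff

namespace Vale.Agent.P113

theorem deriv_b2_of_one_le {t : ℝ} (h1 : 1 ≤ t) : deriv b2 t = deriv bb t := by
  have h : deriv b2 t = deriv bb t - deriv lam t := by
    have e : b2 = fun t => bb t - lam t := rfl
    rw [e, deriv_fun_sub (bb_contDiff.differentiable (by simp) t)
      (flat_lam.smooth.differentiable (by simp) t)]
  rw [h, flat_lam.deriv.zero t (Or.inr h1), sub_zero]

theorem fSol_late (ν P : ℝ) {t : ℝ} (h1 : 1 ≤ t) (x : R3) :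
    fSol ν P t x = ![0, per (deriv lam) t * bb (x 0)
      - ν * (bb t * deriv (deriv bb) (x 0)), 0] := by
  unfold fSol
  rw [deriv_b2_of_one_le h1, b2_of_one_le h1, flat_lam.deriv.zero t (Or.inr h1), mul_zero,
    deriv_bb]

theorem fSol_time_periodic (ν P : ℝ) {t : ℝ} (h1 : 1 ≤ t) (x : R3) :
    fSol ν P (t + 1) x = fSol ν P t x := by
  rw [fSol_late ν P h1, fSol_late ν P (by linarith : (1 : ℝ) ≤ t + 1)]
  have e1 : per (deriv lam) (t + 1) = per (deriv lam) t := by
    have := per_periodic (deriv lam) t 1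
    simpa using this
  have e2 : bb (t + 1) = bb t := by
    have := bb_add_int t 1
    simpa using this
  rw [e1, e2]

theorem fSol_indep (ν P P' : ℝ) {t : ℝ} (h1 : 1 ≤ t) (x : R3) :
    fSol ν P t x = fSol ν P' t x := by
  rw [fSol_late ν P h1, fSol_late ν P' h1]

/-- primitive of the bump -/
noncomputable def L (t : ℝ) : ℝ := ∫ s in (0 : ℝ)..t, lam s

/-- primitive of `b2` -/
noncomputable def J (t : ℝ) : ℝ := ∫ s in (0 : ℝ)..t, b2 s

theorem L_hasDerivAt (t : ℝ) : HasDerivAt L (lam t) t :=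
  intervalIntegral.integral_hasDerivAt_right (flat_lam.smooth.continuous.intervalIntegrable _ _)
    (flat_lam.smooth.continuous.stronglyMeasurableAtFilter _ _) flat_lam.smooth.continuous.continuousAt

theorem J_hasDerivAt (t : ℝ) : HasDerivAt J (b2 t) t :=
  intervalIntegral.integral_hasDerivAt_right (b2_contDiff.continuous.intervalIntegrable _ _)
    (b2_contDiff.continuous.stronglyMeasurableAtFilter _ _) b2_contDiff.continuous.continuousAt

theorem L_of_one_le {t : ℝ} (ht : 1 ≤ t) : L t = L 1 := by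
  unfold L
  rw [← intervalIntegral.integral_add_adjacent_intervals (b := 1)
    (flat_lam.smooth.continuous.intervalIntegrable _ _)
    (flat_lam.smooth.continuous.intervalIntegrable _ _)]
  have : ∫ s in (1 : ℝ)..t, lam s = 0 := by
    have h : ∀ s ∈ uIcc 1 t, lam s = 0 := by
      intro s hs
      rw [uIcc_of_le ht] at hs
      exact flat_lam.zero s (Or.inr hs.1)
    rw [intervalIntegral.integral_congr h]
    simp
  rw [this, add_zero]

theorem L_one_pos : 0 < L 1 := by
  unfold L
  refine intervalIntegral.intervalIntegral_pos_of_pos_on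
    (flat_lam.smooth.continuous.intervalIntegrable _ _) ?_ zero_lt_one
  intro x hx
  exact lam_pos hx.1 hx.2

theorem lam_lt_one (s : ℝ) (hs : s ≤ 1) : lam s ≤ Real.exp (-1) := by
  have h1 : expNegInvGlue s ≤ Real.exp (-1) := by
    have h := expNegInvGlue.monotone hs
    have e : expNegInvGlue 1 = Real.exp (-1) := by
      unfold expNegInvGlue
      rw [if_neg (by norm_num)]
      simp
    rwa [e] at h
  have h2 : expNegInvGlue (1 - s) ≤ 1 := by
    unfold expNegInvGlue
    split_ifs with h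
    · exact zero_le_one
    · push Not at h
      rw [Real.exp_le_one_iff]
      have := inv_pos.2 h
      linarith
  unfold lam
  calc expNegInvGlue s * expNegInvGlue (1 - s) ≤ Real.exp (-1) * 1 := by
        apply mul_le_mul h1 h2 (expNegInvGlue.nonneg _) (Real.exp_pos _).le
    _ = Real.exp (-1) := mul_one _

theorem L_one_lt : L 1 < 1 := by
  have h : L 1 ≤ ∫ _s in (0 : ℝ)..1, Real.exp (-1) := by
    unfold L
    refine intervalIntegral.integral_mono_on zero_le_one
      (flat_lam.smooth.continuous.intervalIntegrable _ _) intervalIntegrable_const ?_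
    intro x hx
    exact lam_lt_one x hx.2
  have e : ∫ _s in (0 : ℝ)..1, Real.exp (-1) = Real.exp (-1) := by simp
  rw [e] at h
  have : Real.exp (-1) < 1 := by
    rw [Real.exp_lt_one_iff]
    norm_num
  linarith

theorem bb_periodic : Function.Periodic bb 1 := by
  intro x
  have := bb_add_int x 1
  simpa using this

theorem J_succ {t : ℝ} (ht : 1 ≤ t) : J (t + 1) = J t + L 1 := by
  unfold J
  rw [← intervalIntegral.integral_add_adjacent_intervals (a := 0) (b := t) (c := t + 1)
    (b2_contDiff.continuous.intervalIntegrable _ _)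
    (b2_contDiff.continuous.intervalIntegrable _ _)]
  congr 1
  have h : ∀ s ∈ uIcc t (t + 1), b2 s = bb s := by
    intro s hs
    rw [uIcc_of_le (by linarith)] at hs
    exact b2_of_one_le (le_trans ht hs.1)
  rw [intervalIntegral.integral_congr h, bb_periodic.intervalIntegral_add_eq t 0]
  unfold L
  rw [zero_add]
  refine intervalIntegral.integral_congr_ae ?_
  have : ∀ᵐ s ∂volume, s ∈ uIoc (0 : ℝ) 1 → bb s = lam s := by
    have hne : ∀ᵐ s : ℝ ∂volume, s ≠ 1 := by
      have : (volume : Measure ℝ) {1} = 0 := by simp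
      exact compl_mem_ae_iff.2 this
    filter_upwards [hne] with s hs hs'
    rw [uIoc_of_le zero_le_one] at hs'
    have hlt : s < 1 := lt_of_le_of_ne hs'.2 hs
    unfold bb per
    rw [Int.fract_eq_self.2 ⟨hs'.1.le, hlt⟩]
  exact this

theorem J_zero : J 0 = 0 := by simp [J]

theorem J_one : J 1 = 0 := by
  unfold J
  have h : ∀ s ∈ uIcc (0 : ℝ) 1, b2 s = 0 := by
    intro s hs
    rw [uIcc_of_le zero_le_one] at hs
    exact b2_of_le_one hs.1 hs.2
  rw [intervalIntegral.integral_congr h]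
  simp

theorem J_nat (n : ℕ) : J (1 + n) = n * L 1 := by
  induction n with
  | zero => simp [J_one]
  | succ n ih =>
    have : (1 : ℝ) + ((n + 1 : ℕ) : ℝ) = (1 + n) + 1 := by push_cast; ring
    rw [this, J_succ (by have : (0 : ℝ) ≤ n := Nat.cast_nonneg n; linarith), ih]
    push_cast
    ring

theorem L_zero : L 0 = 0 := by simp [L]

/-- A function on `[0,∞)` with the same derivative and the same initial value. -/
theorem eq_of_deriv_eq {g h : ℝ → ℝ} {d : ℝ → ℝ}
    (hg : ∀ t ≥ 0, HasDerivWithinAt g (d t) (Ici 0) t)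
    (hh : ∀ t ≥ 0, HasDerivWithinAt h (d t) (Ici 0) t) (h0 : g 0 = h 0) :
    ∀ t ≥ 0, g t = h t := by
  intro t ht
  have hd : ∀ s ≥ (0 : ℝ), HasDerivWithinAt (fun s => g s - h s) 0 (Ici 0) s := by
    intro s hs
    have := (hg s hs).fun_sub (hh s hs)
    simpa using this
  have hc : ∀ s ∈ Icc (0 : ℝ) t, (fun s => g s - h s) s = (fun s => g s - h s) 0 := by
    apply constant_of_has_deriv_right_zero
    · intro s hs
      exact ((hd s hs.1).continuousWithinAt).mono Icc_subset_Ici_self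
    · intro s hs
      exact (hd s hs.1).mono (Ici_subset_Ici.2 hs.1)
  have := hc t ⟨ht, le_rfl⟩
  simp only at this
  linarith

/-- The explicit trajectory from `k`. -/
noncomputable def traj (P : ℝ) (t : ℝ) : R3 := ![P * L t, bb (P * L 1) * J t, 0]

theorem b2_mul_bb (P : ℝ) {t : ℝ} (ht : 0 ≤ t) :
    b2 t * bb (P * L t) = b2 t * bb (P * L 1) := by
  rcases le_total t 1 with h | h
  · rw [b2_of_le_one ht h]; simp
  · rw [L_of_one_le h]

theorem traj_isTrajectory (P : ℝ) : IsTrajectory (uSol P) (toT3 0) (traj P) := by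
  constructor
  · unfold traj
    rw [L_zero, J_zero]
    congr 1
    ext i
    fin_cases i <;> simp
  · intro t ht
    refine HasDerivAt.hasDerivWithinAt ?_
    rw [hasDerivAt_pi]
    intro i
    fin_cases i
    · simpa [uSol, traj] using (L_hasDerivAt t).const_mul P
    · have h := (J_hasDerivAt t).const_mul (bb (P * L 1))
      have e := b2_mul_bb P ht
      simp only [uSol, traj]
      simp only [Fin.isValue, Matrix.cons_val_zero, Fin.mk_one, Matrix.cons_val_one]
      rw [e, mul_comm (b2 t)]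
      exact h
    · simpa [uSol, traj] using hasDerivAt_const t (0 : ℝ)

/-- Second coordinate of any trajectory from the origin of the torus. -/
theorem trajectory_snd (P : ℝ) {X : ℝ → R3} (hX : IsTrajectory (uSol P) (toT3 0) X) :
    ∃ k : ℤ, ∀ t ≥ 0, X t 1 = k + bb (P * L 1) * J t := by
  obtain ⟨h0, hd⟩ := hX
  have hint : ∀ i, ∃ k : ℤ, X 0 i = k := by
    intro i
    have h := congrFun h0 i
    simp only [toT3, Pi.zero_apply] at h
    have h' : ((X 0 i : ℝ) : AddCircle (1 : ℝ)) = 0 := by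
      rw [h]
      exact QuotientAddGroup.mk_zero _
    obtain ⟨n, hn⟩ := (AddCircle.coe_eq_zero_iff (1 : ℝ)).1 h'
    refine ⟨n, ?_⟩
    rw [← hn]
    simp
  obtain ⟨k0, hk0⟩ := hint 0
  obtain ⟨k1, hk1⟩ := hint 1
  have hd' : ∀ i, ∀ t ≥ 0, HasDerivWithinAt (fun s => X s i) (uSol P t (X t) i) (Ici 0) t :=
    fun i t ht => (hasDerivWithinAt_pi.1 (hd t ht)) i
  have hx0 : ∀ t ≥ 0, X t 0 = k0 + P * L t := by
    refine eq_of_deriv_eq (d := fun t => P * lam t) ?_ ?_ ?_
    · intro t ht
      simpa [uSol] using hd' 0 t ht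
    · intro t _
      exact (((L_hasDerivAt t).const_mul P).const_add (k0 : ℝ)).hasDerivWithinAt
    · rw [hk0, L_zero]; ring
  refine ⟨k1, eq_of_deriv_eq (d := fun t => bb (P * L 1) * b2 t) ?_ ?_ ?_⟩
  · intro t ht
    have h := hd' 1 t ht
    simp only [uSol, Matrix.cons_val_one] at h
    rw [hx0 t ht, add_comm, bb_add_int] at h
    simp only [Matrix.cons_val_zero] at h
    rw [b2_mul_bb P ht, mul_comm] at h
    exact h
  · intro t _
    exact (((J_hasDerivAt t).const_mul (bb (P * L 1))).const_add (k1 : ℝ)).hasDerivWithinAt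
  · rw [hk1, J_zero]; ring

/-- The target set. -/
def target : Set T3 := {z | z 1 ∈ (fun r : ℝ => (r : AddCircle (1 : ℝ))) '' Ioo (1 / 4) (3 / 4)}

theorem isOpen_target : IsOpen target := by
  have h1 : IsOpen ((fun r : ℝ => (r : AddCircle (1 : ℝ))) '' Ioo (1 / 4) (3 / 4)) :=
    QuotientAddGroup.isOpenMap_coe _ isOpen_Ioo
  exact h1.preimage (continuous_apply (1 : Fin 3))

theorem mem_target_iff (x : R3) : toT3 x ∈ target ↔ ∃ m : ℤ, x 1 + m ∈ Ioo (1 / 4 : ℝ) (3 / 4) := by
  constructor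
  · rintro ⟨r, hr, hrx⟩
    have hrx' : ((r : ℝ) : AddCircle (1 : ℝ)) = ((x 1 : ℝ) : AddCircle (1 : ℝ)) := hrx
    have h : ((r - x 1 : ℝ) : AddCircle (1 : ℝ)) = 0 := by
      rw [AddCircle.coe_sub, hrx', sub_self]
    obtain ⟨n, hn⟩ := (AddCircle.coe_eq_zero_iff (1 : ℝ)).1 h
    refine ⟨n, ?_⟩
    have : x 1 + n = r := by
      have : (n : ℝ) = r - x 1 := by simpa using hn
      linarith
    rw [this]
    exact hr
  · rintro ⟨m, hm⟩
    refine ⟨x 1 + m, hm, ?_⟩
    have h : (((m : ℤ) : ℝ) : AddCircle (1 : ℝ)) = 0 :=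
      (AddCircle.coe_eq_zero_iff (1 : ℝ)).2 ⟨m, by simp⟩
    show ((x 1 + m : ℝ) : AddCircle (1 : ℝ)) = ((x 1 : ℝ) : AddCircle (1 : ℝ))
    rw [AddCircle.coe_add, h, add_zero]

theorem hits_of_pos {P : ℝ} (h0 : 0 < P) (h1 : P ≤ 1) {X : ℝ → R3}
    (hX : IsTrajectory (uSol P) (toT3 0) X) : ∃ t ≥ 0, toT3 (X t) ∈ target := by
  obtain ⟨k, hk⟩ := trajectory_snd P hX
  have hc : 0 < bb (P * L 1) := by
    have hp : 0 < P * L 1 := mul_pos h0 L_one_pos
    have hlt : P * L 1 < 1 := by
      calc P * L 1 ≤ 1 * L 1 := mul_le_mul_of_nonneg_right h1 L_one_pos.le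
        _ < 1 := by rw [one_mul]; exact L_one_lt
    unfold bb per
    rw [Int.fract_eq_self.2 ⟨hp.le, hlt⟩]
    exact lam_pos hp hlt
  set c := bb (P * L 1) with hcdef
  obtain ⟨n, hn⟩ := exists_nat_gt (1 / (2 * (c * L 1)))
  have hcL : 0 < c * L 1 := mul_pos hc L_one_pos
  have hJ : 1 / 2 ≤ c * J (1 + n) := by
    rw [J_nat]
    have : 1 / (2 * (c * L 1)) * (c * L 1) = 1 / 2 := by
      have hne := hcL.ne'
      generalize c * L 1 = z at hne
      field_simp
    calc (1 : ℝ) / 2 = 1 / (2 * (c * L 1)) * (c * L 1) := this.symm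
      _ ≤ n * (c * L 1) := mul_le_mul_of_nonneg_right hn.le hcL.le
      _ = c * (n * L 1) := by ring
  have hcont : ContinuousOn (fun t => c * J t) (Icc 0 (1 + n)) := by
    refine Continuous.continuousOn (continuous_const.mul ?_)
    exact continuous_iff_continuousAt.2 fun t => (J_hasDerivAt t).continuousAt
  have h01 : (0 : ℝ) ≤ 1 + n := by positivity
  have hiv := intermediate_value_Icc h01 hcont
  have hmem : (1 / 2 : ℝ) ∈ Icc ((fun t => c * J t) 0) ((fun t => c * J t) (1 + n)) := by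
    constructor
    · simp [J_zero]
    · exact hJ
  obtain ⟨t, ht, hte⟩ := hiv hmem
  refine ⟨t, ht.1, ?_⟩
  rw [mem_target_iff]
  refine ⟨-k, ?_⟩
  rw [hk t ht.1]
  simp only at hte
  rw [hte]
  push_cast
  constructor <;> linarith

theorem not_hits_zero {X : ℝ → R3}
    (hX : IsTrajectory (uSol 0) (toT3 0) X) : ¬ ∃ t ≥ 0, toT3 (X t) ∈ target := by
  obtain ⟨k, hk⟩ := trajectory_snd 0 hX
  rintro ⟨t, ht, hm⟩
  rw [mem_target_iff] at hm
  obtain ⟨m, hm⟩ := hm
  rw [hk t ht] at hm
  have hb : bb (0 * L 1) = 0 := by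
    unfold bb per
    rw [zero_mul, Int.fract_zero]
    exact flat_lam.zero 0 (Or.inl le_rfl)
  rw [hb, zero_mul, add_zero] at hm
  obtain ⟨h1, h2⟩ := hm
  have e1 : (0 : ℝ) < ((k + m : ℤ) : ℝ) := by push_cast; linarith
  have e2 : ((k + m : ℤ) : ℝ) < 1 := by push_cast; linarith
  have e3 : 0 < k + m := by exact_mod_cast e1
  have e4 : k + m < 1 := by exact_mod_cast e2
  omega

end Vale.Agent.P113
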